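import Vale.Agent.P166W95.Defs

/-! P166: the variational formula for a general function `R` in the spectral part. -/

namespace Vale.Agent.N166

open MeasureTheory Vale.Agent.P166W95

/-- The functional `J_R(q, r) = (β/2) ∫₀¹ R(β L(s)) ds + Ψ_m(r) + ½ ∑ (m_{l+1} - m_l) r_l q_l`. -/
noncomputable def funcR (β : ℝ) (R : ℝ → ℝ) (k : ℕ) (m q r : ℕ → ℝ) : ℝ :=
  β / 2 * (∫ s in (0 : ℝ)..1, R (β * level k m q s)) + spinPart k m r +
    1 / 2 * ∑ l ∈ Finset.range (k + 1), (m (l + 1) - m l) * r l * q l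

/-- The values of `J_R(q, r)` over all paths `r`. -/
def innerR (β : ℝ) (R : ℝ → ℝ) (k : ℕ) (m q : ℕ → ℝ) : Set ℝ :=
  {x | ∃ r, MonoPath k r ∧ x = funcR β R k m q r}

/-- The values of `sup_r J_R(q, r)` over `k ≥ 0`, exponents `m` and `0 = q 0 ≤ ⋯ ≤ q k < 1`. -/
def outerR (β : ℝ) (R : ℝ → ℝ) : Set ℝ :=
  {y | ∃ k m q, Exponents k m ∧ MonoPath k q ∧ q 0 = 0 ∧ q k < 1 ∧ y = sSup (innerR β R k m q)}

/-- The value `inf_{k, m, q} sup_r J_R(q, r)`. -/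
noncomputable def valueR (β : ℝ) (R : ℝ → ℝ) : ℝ := sInf (outerR β R)

/-- `y ↦ max (G⁻¹(y), lam) - 1/y`: the R-transform with the edge moved to `lam`. -/
noncomputable def spiked (μ : Measure ℝ) (lam y : ℝ) : ℝ := max (stieltjesInv μ y) lam - 1 / y

end Vale.Agent.N166
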