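import Vale.Agent.N166.Val

/-! P166, outliers: comparison of spectra in the increasing convex order, and model spectra. -/

namespace Vale.Agent.N166

open MeasureTheory ProbabilityTheory Filter Topology Vale.Agent.P166
open Vale.Agent.P166.H295 (qt)

/-- `∑ (a i - t)⁺` -/
noncomputable def cx {N : ℕ} (a : Fin N → ℝ) (t : ℝ) : ℝ := ∑ i, max (a i - t) 0

theorem cx_nonneg {N : ℕ} (a : Fin N → ℝ) (t : ℝ) : 0 ≤ cx a t :=
  Finset.sum_nonneg fun _ _ => le_max_right _ _

theorem cx_lip {N : ℕ} (a : Fin N → ℝ) {s t c : ℝ} (h : |s - t| ≤ c) :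
    cx a s ≤ cx a t + N * c := by
  have h1 : (N : ℝ) * c = ∑ _i : Fin N, c := by simp
  rw [h1, cx, cx, ← Finset.sum_add_distrib]
  refine Finset.sum_le_sum fun i _ => max_le ?_ ?_
  · linarith [le_max_left (a i - t) 0, (abs_le.1 h).1]
  · linarith [le_max_right (a i - t) 0, abs_nonneg (s - t)]

theorem cx_zero {N : ℕ} {a : Fin N → ℝ} {t : ℝ} (h : ∀ i, a i ≤ t) : cx a t = 0 :=
  Finset.sum_eq_zero fun i _ => max_eq_right (sub_nonpos.2 (h i))

theorem icx_ev {a b : (N : ℕ) → Fin N → ℝ} {φ ψ : ℝ → ℝ} {A T η : ℝ}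
    (ha : ∀ t, Tendsto (fun N : ℕ => 1 / (N : ℝ) * cx (a N) t) atTop (𝓝 (φ t)))
    (hb : ∀ t, Tendsto (fun N : ℕ => 1 / (N : ℝ) * cx (b N) t) atTop (𝓝 (ψ t)))
    (hA : ∀ᶠ N in atTop, ∀ i, A ≤ b N i) (gap : ∀ t ≤ T, φ t < ψ (t - η))
    (edge : ∀ᶠ N in atTop, ∀ t, T ≤ t → cx (a N) t ≤ cx (b N) (t - η)) :
    ∀ᶠ N in atTop, ∀ t, cx (a N) t ≤ cx (b N) (t - η) := by
  have h1 : ∀ᶠ N in atTop, ∀ t ∈ Set.Icc (min (A + η) T) T, cx (a N) t ≤ cx (b N) (t - η) := by
    refine isCompact_Icc.induction_on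
      (p := fun S => ∀ᶠ N in atTop, ∀ t ∈ S, cx (a N) t ≤ cx (b N) (t - η)) (by simp)
      (fun S S' h h' => h'.mono fun N hN t ht => hN t (h ht))
      (fun S S' h h' => (h.and h').mono fun N hN t ht => ht.elim (hN.1 t) (hN.2 t)) ?_
    intro t0 ht0
    obtain ⟨g, hg⟩ : ∃ g, g = (ψ (t0 - η) - φ t0) / 4 := ⟨_, rfl⟩
    have hg0 : 0 < g := by linarith [gap t0 ht0.2]
    refine ⟨Metric.closedBall t0 g, mem_nhdsWithin_of_mem_nhds (Metric.closedBall_mem_nhds _ hg0),
      ?_⟩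
    filter_upwards [(ha t0).eventually (gt_mem_nhds (show φ t0 < φ t0 + g by linarith)),
      (hb (t0 - η)).eventually (lt_mem_nhds (show ψ (t0 - η) - g < ψ (t0 - η) by linarith)),
      eventually_gt_atTop 0] with N h2 h3 hN t ht
    have hN' : (0 : ℝ) < N := by exact_mod_cast hN
    have h4 : |t - t0| ≤ g := ht
    have h5 := cx_lip (a N) h4
    have h6 := cx_lip (b N) (s := t0 - η) (t := t - η) (c := g)
      (by rwa [sub_sub_sub_cancel_right, abs_sub_comm])
    rw [one_div_mul_eq_div, div_lt_iff₀ hN'] at h2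
    rw [one_div_mul_eq_div, lt_div_iff₀ hN'] at h3
    have e : (ψ (t0 - η) - g) * N = (φ t0 + g) * N + 2 * (N * g) := by
      rw [hg]
      ring
    linarith
  filter_upwards [h1, hA, edge] with N h2 h3 h4 t
  rcases le_total T t with ht | ht
  · exact h4 t ht
  rcases le_total (min (A + η) T) t with ht' | ht'
  · exact h2 t ⟨ht', ht⟩
  have h5 := h2 _ ⟨le_rfl, min_le_right _ _⟩
  have h6 := min_le_left (A + η) T
  generalize min (A + η) T = s at ht' h5 h6
  have h7 := cx_lip (a N) (s := t) (t := s) (c := s - t)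
    (by rw [abs_sub_comm, abs_of_nonneg (sub_nonneg.2 ht')])
  have h8 : cx (b N) (t - η) = cx (b N) (s - η) + N * (s - t) := by
    have h9 : (N : ℝ) * (s - t) = ∑ _i : Fin N, (s - t) := by simp [mul_sub]
    rw [h9, cx, cx, ← Finset.sum_add_distrib]
    refine Finset.sum_congr rfl fun i _ => ?_
    rw [max_eq_left (by linarith [h3 i]), max_eq_left (by linarith [h3 i])]
    ring
  linarith

/-- weak convergence of the empirical measures -/
def Wk (Λ : (N : ℕ) → Fin N → ℝ) (μ : Measure ℝ) : Prop :=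
  ∀ f : BoundedContinuousFunction ℝ ℝ,
    Tendsto (fun N : ℕ => (1 / (N : ℝ)) * ∑ i, f (Λ N i)) atTop (𝓝 (∫ x, f x ∂μ))

theorem cx_lim {Λ : (N : ℕ) → Fin N → ℝ} {μ : Measure ℝ} (hw : Wk Λ μ) {B : ℝ}
    (hB : ∀ᶠ N in atTop, ∀ i, Λ N i ≤ B) (hμ : ∀ᵐ x ∂μ, x ≤ B) (t : ℝ) :
    Tendsto (fun N : ℕ => 1 / (N : ℝ) * cx (Λ N) t) atTop (𝓝 (∫ x, max (x - t) 0 ∂μ)) := by
  have h := hw (BoundedContinuousFunction.ofNormedAddCommGroup (fun x => max (min x B - t) 0)
    (by fun_prop) |B - t| fun x => by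
      rw [Real.norm_eq_abs, abs_of_nonneg (le_max_right _ _)]
      exact max_le (by linarith [min_le_right x B, le_abs_self (B - t)]) (abs_nonneg _))
  simp only [BoundedContinuousFunction.coe_ofNormedAddCommGroup] at h
  have e : ∫ x, max (min x B - t) 0 ∂μ = ∫ x, max (x - t) 0 ∂μ :=
    integral_congr_ae (hμ.mono fun x hx => by simp only [min_eq_left hx])
  rw [e] at h
  refine h.congr' (hB.mono fun N hN => ?_)
  simp only [cx, fun i => min_eq_left (hN i)]

theorem ev_le {Λ : (N : ℕ) → Fin N → ℝ} {l B : ℝ}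
    (h : Tendsto (fun N => ⨆ i, Λ N i) atTop (𝓝 l)) (hB : l < B) : ∀ᶠ N in atTop, ∀ i, Λ N i ≤ B :=
  (h.eventually (gt_mem_nhds hB)).mono fun _ hN i =>
    (le_ciSup (Set.finite_range _).bddAbove i).trans hN.le

theorem ev_ge {Λ : (N : ℕ) → Fin N → ℝ} {l B : ℝ}
    (h : Tendsto (fun N => ⨅ i, Λ N i) atTop (𝓝 l)) (hB : B < l) : ∀ᶠ N in atTop, ∀ i, B ≤ Λ N i :=
  (h.eventually (lt_mem_nhds hB)).mono fun _ hN i =>
    hN.le.trans (ciInf_le (Set.finite_range _).bddBelow i)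

theorem ev_top {Λ : (N : ℕ) → Fin N → ℝ} {l B : ℝ}
    (h : Tendsto (fun N => ⨆ i, Λ N i) atTop (𝓝 l)) (hB : B < l) :
    ∀ᶠ N in atTop, ∃ i, B ≤ Λ N i := by
  filter_upwards [h.eventually (lt_mem_nhds hB), eventually_gt_atTop 0] with N h1 hN
  have : Nonempty (Fin N) := ⟨⟨0, hN⟩⟩
  obtain ⟨i, hi⟩ := exists_eq_ciSup_of_finite (f := Λ N)
  exact ⟨i, hi ▸ h1.le⟩

section

variable {μ : Measure ℝ} [IsProbabilityMeasure μ] (hμ : IsCompact μ.support)

include hμ

theorem int_pos_part (t : ℝ) : Integrable (fun x => max (x - t) 0) μ := by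
  refine Integrable.of_bound (by fun_prop) |sSup μ.support - t| ?_
  filter_upwards [F.rt2_ae_le hμ] with x hx
  rw [Real.norm_eq_abs, abs_of_nonneg (le_max_right _ _)]
  exact max_le (by linarith [le_abs_self (sSup μ.support - t)]) (abs_nonneg _)

theorem gap_pos {s η t : ℝ} (hs : s ∈ μ.support) (hη : 0 < η) (ht : t ≤ s + η / 2) :
    ∫ x, max (x - t) 0 ∂μ < ∫ x, max (x - (t - η)) 0 ∂μ := by
  rw [← sub_pos, ← integral_sub (int_pos_part hμ _) (int_pos_part hμ _),
    integral_pos_iff_support_of_nonneg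
      (fun x => sub_nonneg.2 (max_le_max_right _ (by linarith)))
      ((int_pos_part hμ _).sub (int_pos_part hμ _))]
  refine (Measure.mem_support_iff_forall s).1 hs _ ?_
  have hc : Continuous fun x : ℝ => max (x - (t - η)) 0 - max (x - t) 0 := by fun_prop
  refine hc.isOpen_support.mem_nhds (sub_pos.2 ?_).ne'
  exact max_lt (lt_max_of_lt_left (by linarith)) (lt_max_of_lt_left (by linarith))

theorem pos_part_le {l : ℝ} (hl : sSup μ.support ≤ l) (t : ℝ) :
    ∫ x, max (x - t) 0 ∂μ ≤ max (l - t) 0 := by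
  have h := integral_mono_ae (int_pos_part hμ t) (integrable_const (max (l - t) 0))
    ((F.rt2_ae_le hμ).mono fun x hx => max_le_max_right _ (by linarith))
  simpa using h

theorem le_pos_part {A : ℝ} (hA : A ≤ sInf μ.support) (t : ℝ) :
    max (A - t) 0 ≤ ∫ x, max (x - t) 0 ∂μ := by
  have h := integral_mono_ae (integrable_const (max (A - t) 0)) (int_pos_part hμ t)
    ((F.rt2_ae_ge hμ).mono fun x hx => max_le_max_right _ (by linarith))
  simpa using h

/-- The limit of the largest eigenvalue is at least the edge of the support. -/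
theorem sup_le_lam {Λ : (N : ℕ) → Fin N → ℝ} (hw : Wk Λ μ) {l : ℝ}
    (h : Tendsto (fun N => ⨆ i, Λ N i) atTop (𝓝 l)) : sSup μ.support ≤ l := by
  by_contra hc
  obtain ⟨t, h1, h2⟩ := exists_between (not_le.1 hc)
  have h3 := cx_lim hw (ev_le h (not_le.1 hc)) (F.rt2_ae_le hμ) t
  have h4 : Tendsto (fun N : ℕ => 1 / (N : ℝ) * cx (Λ N) t) atTop (𝓝 0) :=
    tendsto_const_nhds.congr' ((ev_le h h1).mono fun N hN => by simp [cx_zero hN])
  have h5 := gap_pos hμ (hμ.sSup_mem F.rt2_ne) (sub_pos.2 h2) (t := sSup μ.support) (by linarith)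
  rw [sub_sub_cancel, tendsto_nhds_unique h3 h4] at h5
  exact absurd h5 (not_lt.2 (integral_nonneg fun _ => le_max_right _ _))

theorem qt_mem {t : ℝ} (h0 : 0 < t) (h1 : t < 1) :
    sInf μ.support ≤ qt μ t ∧ qt μ t ≤ sSup μ.support := by
  constructor
  · by_contra h
    have h2 := (H295.qt_le_iff μ h0 h1 _).1 le_rfl
    have h3 : μ (Set.Iic (qt μ t)) = 0 := measure_mono_null
      (fun y hy hys => h ((csInf_le hμ.bddBelow hys).trans hy)) Measure.measure_compl_support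
    rw [cdf_eq_real, measureReal_def, h3, ENNReal.toReal_zero] at h2
    linarith
  · have h2 : μ (Set.Iic (sSup μ.support)) = 1 :=
      (prob_compl_eq_zero_iff measurableSet_Iic).1 (F.rt2_ae_le hμ)
    rw [H295.qt_le_iff μ h0 h1, cdf_eq_real, measureReal_def, h2, ENNReal.toReal_one]
    exact h1.le

end

/-- the quantile array -/
noncomputable def Qa (μ : Measure ℝ) (n j : ℕ) : ℝ := qt μ ((j + 1 / 2) / n)

theorem Qa_mem {μ : Measure ℝ} [IsProbabilityMeasure μ] (hμ : IsCompact μ.support) {n j : ℕ}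
    (h : j < n) : sInf μ.support ≤ Qa μ n j ∧ Qa μ n j ≤ sSup μ.support := by
  have h1 : (j : ℝ) + 1 ≤ n := by exact_mod_cast h
  have h2 : (0 : ℝ) < n := by exact_mod_cast (Nat.zero_le j).trans_lt h
  refine qt_mem hμ (by positivity) ?_
  rw [div_lt_one h2]
  linarith

/-- `n` quantiles of `μ`, then `A`, and `K` times `lam` at the end -/
noncomputable def arr (μ : Measure ℝ) (A lam : ℝ) (n K N : ℕ) : Fin N → ℝ := fun i =>
  (if (i : ℕ) < n then Qa μ n i else A) + if N - K ≤ (i : ℕ) then lam - A else 0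

theorem arr_cases (μ : Measure ℝ) (A lam : ℝ) {n K N : ℕ} (h : n + K ≤ N) (i : Fin N) :
    ((i : ℕ) < n ∧ arr μ A lam n K N i = Qa μ n i) ∨ arr μ A lam n K N i = A ∨
      (N - K ≤ (i : ℕ) ∧ arr μ A lam n K N i = lam) := by
  unfold arr
  split_ifs with h1 h2 h2
  · omega
  · exact Or.inl ⟨h1, add_zero _⟩
  · exact Or.inr (Or.inr ⟨h2, add_sub_cancel _ _⟩)
  · exact Or.inr (Or.inl (add_zero _))

theorem sum_arr (μ : Measure ℝ) (A lam : ℝ) {n K N : ℕ} (h : n + K ≤ N) (f : ℝ → ℝ) :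
    ∑ i, f (arr μ A lam n K N i) =
      ∑ j : Fin n, f (Qa μ n j) + ((N : ℝ) - n - K) * f A + K * f lam := by
  obtain ⟨L, rfl⟩ : ∃ L, N = n + L + K := ⟨N - n - K, by omega⟩
  unfold arr
  rw [Fin.sum_univ_eq_sum_range (fun i => f ((if i < n then Qa μ n i else A) +
      if n + L + K - K ≤ i then lam - A else 0)), Fin.sum_univ_eq_sum_range fun j => f (Qa μ n j),
    Finset.sum_range_add, Finset.sum_range_add]
  congr 1
  · congr 1
    · refine Finset.sum_congr rfl fun i hi => ?_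
      have := Finset.mem_range.1 hi
      rw [if_pos this, if_neg (by omega), add_zero]
    · rw [Finset.sum_congr rfl (g := fun _ => f A) fun i hi => by
        have := Finset.mem_range.1 hi
        rw [if_neg (by omega), if_neg (by omega), add_zero]]
      simp only [Finset.sum_const, Finset.card_range, nsmul_eq_mul]
      push_cast
      ring
  · rw [Finset.sum_congr rfl (g := fun _ => f lam) fun i _ => by
      rw [if_neg (by omega), if_pos (by omega), add_sub_cancel]]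
    simp

theorem arr_lim (μ : Measure ℝ) (A lam : ℝ) {M K : ℕ → ℕ} {α ε c : ℝ} (hα : α < 1)
    (hM : Tendsto (fun N : ℕ => (M N : ℝ) / N) atTop (𝓝 α))
    (hK : Tendsto (fun N : ℕ => (K N : ℝ) / N) atTop (𝓝 ε))
    (hKM : ∀ᶠ N in atTop, K N ≤ M N ∧ M N ≤ N) {f : ℝ → ℝ}
    (hf : Tendsto (fun n : ℕ => 1 / (n : ℝ) * ∑ j : Fin n, f (Qa μ n j)) atTop (𝓝 c)) :
    Tendsto (fun N : ℕ => 1 / (N : ℝ) * ∑ i, f (arr μ A lam (N - M N) (K N) N i)) atTop
      (𝓝 ((1 - α) * c + (α - ε) * f A + ε * f lam)) := by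
  have h1 : Tendsto (fun N : ℕ => (1 - (M N : ℝ) / N) * N) atTop atTop :=
    (tendsto_const_nhds.sub hM).pos_mul_atTop (sub_pos.2 hα) tendsto_natCast_atTop_atTop
  have h2 : Tendsto (fun N : ℕ => N - M N) atTop atTop := by
    refine (tendsto_natCast_atTop_iff (R := ℝ)).1 (h1.congr' ?_)
    filter_upwards [hKM, eventually_gt_atTop 0] with N h hN
    have hN' : (N : ℝ) ≠ 0 := by exact_mod_cast hN.ne'
    rw [Nat.cast_sub h.2]
    field_simp
  refine ((((tendsto_const_nhds.sub hM).mul (hf.comp h2)).add ((hM.sub hK).mul_const (f A))).add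
    (hK.mul_const (f lam))).congr' ?_
  filter_upwards [hKM, eventually_gt_atTop 0, h2.eventually (eventually_gt_atTop 0)]
    with N h hN h3
  have hN' : (N : ℝ) ≠ 0 := by exact_mod_cast hN.ne'
  have h4 : ((N - M N : ℕ) : ℝ) ≠ 0 := by exact_mod_cast h3.ne'
  rw [sum_arr μ A lam (by omega), Function.comp_apply]
  generalize ∑ j : Fin (N - M N), f (Qa μ (N - M N) j) = S
  rw [Nat.cast_sub h.2] at h4 ⊢
  field_simp
  ring

theorem floor_lim {α : ℝ} (h : 0 ≤ α) :
    Tendsto (fun N : ℕ => (⌊α * N⌋₊ : ℝ) / N) atTop (𝓝 α) :=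
  (tendsto_nat_floor_mul_div_atTop h).comp tendsto_natCast_atTop_atTop

theorem one_lim : Tendsto (fun N : ℕ => ((1 : ℕ) : ℝ) / N) atTop (𝓝 0) :=
  tendsto_const_div_atTop_nhds_zero_nat _

/-- Spectra with a prescribed limit of the largest eigenvalue exist. -/
theorem exists_spiked {μ : Measure ℝ} [IsProbabilityMeasure μ] (hμ : IsCompact μ.support)
    {lam : ℝ} (hl : sSup μ.support ≤ lam) : ∃ Λ : (N : ℕ) → Fin N → ℝ, Wk Λ μ ∧
      (∀ N i, sInf μ.support ≤ Λ N i) ∧ ∀ N, ⨆ i, Λ (N + 1) i = lam := by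
  have h0 := F.rt2_inf_le_sup hμ
  have h1 : ∀ N (i : Fin N), sInf μ.support ≤ arr μ (sInf μ.support) lam (N - 1) 1 N i ∧
      arr μ (sInf μ.support) lam (N - 1) 1 N i ≤ lam := fun N i => by
    have := i.pos
    rcases arr_cases μ (sInf μ.support) lam (n := N - 1) (K := 1) (by omega) i with h | h | h
    · rw [h.2]
      exact ⟨(Qa_mem hμ h.1).1, (Qa_mem hμ h.1).2.trans hl⟩
    · rw [h]
      exact ⟨le_rfl, h0.trans hl⟩
    · rw [h.2]
      exact ⟨h0.trans hl, le_rfl⟩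
  refine ⟨fun N => arr μ (sInf μ.support) lam (N - 1) 1 N, fun f => ?_, fun N i => (h1 N i).1,
    fun N => le_antisymm (ciSup_le fun i => (h1 _ i).2) ?_⟩
  · have h := arr_lim μ (sInf μ.support) lam (M := fun _ => 1) (K := fun _ => 1) zero_lt_one
      one_lim one_lim ((eventually_ge_atTop 1).mono fun N hN => ⟨le_rfl, hN⟩)
      (f := f) (H295.weak_qt μ f)
    simpa using h
  · refine le_trans (le_of_eq ?_) (le_ciSup (Set.finite_range _).bddAbove (Fin.last N))
    simp [arr]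

end Vale.Agent.N166
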