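import Vale.Agent.N166.Rot

/-! P166, outliers: `K` outliers inside a block of `M ≫ K` equal eigenvalues are as good as one. -/

namespace Vale.Agent.N166

open MeasureTheory ProbabilityTheory Matrix Vale.Agent.P166
open Vale.Agent.P166.Conc (OG Fx tr nv gam hk)

variable {N : ℕ}

/-- rounding towards zero -/
noncomputable def rd (y : ℝ) : ℤ := if 0 ≤ y then ⌊y⌋ else ⌈y⌉

theorem rd_sq (y : ℝ) : (rd y : ℝ) ^ 2 ≤ y ^ 2 ∧ (y - rd y) ^ 2 ≤ 1 := by
  unfold rd
  split_ifs with h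
  · have h1 := Int.floor_le y
    have h2 := Int.lt_floor_add_one y
    have h3 : (0 : ℝ) ≤ (⌊y⌋ : ℤ) := by exact_mod_cast Int.floor_nonneg.2 h
    constructor <;> nlinarith
  · have h1 := Int.le_ceil y
    have h2 := Int.ceil_lt_add_one y
    have h3 : ((⌈y⌉ : ℤ) : ℝ) ≤ 0 := by exact_mod_cast Int.ceil_nonpos.2 (not_le.1 h).le
    constructor <;> nlinarith

theorem rd_zero : rd 0 = 0 := by simp [rd]

theorem theta_bdd {δ : ℝ} (hδ : 0 < δ) : ∃ C : ℝ, 1 ≤ C ∧ ∀ s : Finset ℤ,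
    ∑ j ∈ s, Real.exp (-(δ ^ 2 * (j : ℝ) ^ 2)) ≤ C := by
  have h := summable_pow_mul_jacobiTheta₂_term_bound 0 (T := δ ^ 2 / Real.pi) (by positivity) 0
  have h1 : Summable fun j : ℤ => Real.exp (-(δ ^ 2 * (j : ℝ) ^ 2)) := by
    refine h.congr fun j => ?_
    rw [pow_zero, one_mul]
    congr 1
    have := Real.pi_pos
    field_simp
    ring
  exact ⟨max 1 _, le_max_left _ _, fun s =>
    (h1.sum_le_tsum s fun _ _ => (Real.exp_pos _).le).trans (le_max_right _ _)⟩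

/-- the lattice points of the net -/
noncomputable def net (N m : ℕ) (T : ℝ) : Finset (Fin N → ℤ) :=
  (Fintype.piFinset fun i : Fin N =>
    if m ≤ (i : ℕ) then Finset.Icc (-⌈T⌉) ⌈T⌉ else {0}).filter fun n => ∑ i, (n i : ℝ) ^ 2 ≤ T

theorem net_zero {m : ℕ} {T : ℝ} {n : Fin N → ℤ} (hn : n ∈ net N m T) {j : Fin N}
    (hj : (j : ℕ) < m) : n j = 0 := by
  have h := Fintype.mem_piFinset.1 (Finset.mem_filter.1 hn).1 j
  rw [if_neg (not_le.2 hj)] at h
  exact Finset.mem_singleton.1 h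

theorem mem_net {m : ℕ} {T : ℝ} {n : Fin N → ℤ} (h0 : ∀ j : Fin N, (j : ℕ) < m → n j = 0)
    (h : ∑ i, (n i : ℝ) ^ 2 ≤ T) : n ∈ net N m T := by
  refine Finset.mem_filter.2 ⟨Fintype.mem_piFinset.2 fun i => ?_, h⟩
  split_ifs with hi
  · have h1 : (n i : ℝ) ^ 2 ≤ T := (Finset.single_le_sum (f := fun i => (n i : ℝ) ^ 2)
      (fun _ _ => sq_nonneg _) (Finset.mem_univ i)).trans h
    have h2 : n i ^ 2 ≤ ⌈T⌉ := by exact_mod_cast h1.trans (Int.le_ceil T)
    have h3 : |n i| ≤ n i ^ 2 := by rw [← sq_abs]; exact Int.le_self_sq _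
    exact Finset.mem_Icc.2 (abs_le.1 (h3.trans h2))
  · rw [h0 i (not_le.1 hi)]
    exact Finset.mem_singleton_self _

theorem card_net {δ C : ℝ} (hδ : 0 < δ)
    (hC : ∀ s : Finset ℤ, ∑ j ∈ s, Real.exp (-(δ ^ 2 * (j : ℝ) ^ 2)) ≤ C) {K : ℕ} (hK : K ≤ N) :
    ((net N (N - K) (K / δ ^ 2)).card : ℝ) ≤ (Real.exp 1 * C) ^ K := by
  set box := fun i : Fin N =>
    if N - K ≤ (i : ℕ) then Finset.Icc (-⌈(K : ℝ) / δ ^ 2⌉) ⌈(K : ℝ) / δ ^ 2⌉ else {0} with hbox
  have h1 : ((net N (N - K) (K / δ ^ 2)).card : ℝ) ≤ ∑ n ∈ Fintype.piFinset box,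
      Real.exp K * ∏ i, Real.exp (-(δ ^ 2 * (n i : ℝ) ^ 2)) := by
    rw [Finset.card_eq_sum_ones, Nat.cast_sum]
    refine le_trans (Finset.sum_le_sum fun n hn => ?_) (Finset.sum_le_sum_of_subset_of_nonneg
      (Finset.filter_subset _ _) fun _ _ _ => by positivity)
    have h2 := (Finset.mem_filter.1 hn).2
    rw [le_div_iff₀ (by positivity)] at h2
    rw [← Real.exp_sum, ← Real.exp_add, Finset.sum_neg_distrib, ← Finset.mul_sum, Nat.cast_one]
    exact Real.one_le_exp (by linarith)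
  rw [← Finset.mul_sum, ← Finset.prod_univ_sum box
    (fun _ (j : ℤ) => Real.exp (-(δ ^ 2 * (j : ℝ) ^ 2)))] at h1
  have h3 : ∏ i, ∑ j ∈ box i, Real.exp (-(δ ^ 2 * (j : ℝ) ^ 2)) ≤
      ∏ i : Fin N, (if N - K ≤ (i : ℕ) then C else 1) := by
    refine Finset.prod_le_prod (fun i _ => Finset.sum_nonneg fun _ _ => (Real.exp_pos _).le)
      fun i _ => ?_
    simp only [hbox]
    split_ifs
    · exact hC _
    · simp
  have h4 : (Finset.univ.filter fun i : Fin N => N - K ≤ (i : ℕ)).card = K := by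
    have h5 := card_ge (N := N) (Nat.sub_le N K)
    rw [Nat.cast_sub hK, sub_sub_cancel] at h5
    exact_mod_cast h5
  rw [Finset.prod_ite, Finset.prod_const, Finset.prod_const_one, mul_one, h4] at h3
  rw [mul_pow, ← Real.exp_nat_mul, mul_one]
  exact h1.trans (mul_le_mul_of_nonneg_left h3 (Real.exp_pos _).le)

/-- the vector of a lattice point -/
noncomputable def vec (δ : ℝ) (K : ℕ) (n : Fin N → ℤ) : Fin N → ℝ := fun i => δ / √(K : ℝ) * n i

theorem vec_sq {δ : ℝ} (hδ : 0 < δ) {K m : ℕ} (hK : 0 < K) {n : Fin N → ℤ}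
    (hn : n ∈ net N m (K / δ ^ 2)) : vec δ K n ⬝ᵥ vec δ K n ≤ 1 := by
  have h2 := (Finset.mem_filter.1 hn).2
  have hK' : (0 : ℝ) < K := by exact_mod_cast hK
  rw [le_div_iff₀ (by positivity)] at h2
  have e : vec δ K n ⬝ᵥ vec δ K n = (∑ i, (n i : ℝ) ^ 2) * δ ^ 2 / K := by
    rw [Finset.sum_mul, Finset.sum_div]
    refine Finset.sum_congr rfl fun i _ => ?_
    unfold vec
    rw [← sq, mul_pow, div_pow, Real.sq_sqrt hK'.le]
    ring
  rw [e, div_le_one hK']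
  exact h2

/-- Every vector of squared length `N` is close to a point of the net. -/
theorem exists_net {δ : ℝ} (hδ : 0 < δ) {K : ℕ} (hK : 0 < K) (hKN : K ≤ N) {x : Fin N → ℝ}
    (hx : x ⬝ᵥ x = N) : ∃ n ∈ net N (N - K) (K / δ ^ 2),
      (∑ i : Fin N, if N - K ≤ (i : ℕ) then x i ^ 2 else 0) / 2 ≤
        √(N : ℝ) * (vec δ K n ⬝ᵥ x) - N * (vec δ K n ⬝ᵥ vec δ K n) / 2 + N * δ ^ 2 / 2 := by
  have hK' : (0 : ℝ) < K := by exact_mod_cast hK
  have hN' : (0 : ℝ) < N := by exact_mod_cast hK.trans_le hKN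
  have hsK : 0 < √(K : ℝ) := Real.sqrt_pos.2 hK'
  have hsN : 0 < √(N : ℝ) := Real.sqrt_pos.2 hN'
  have eK : √(K : ℝ) ^ 2 = K := Real.sq_sqrt hK'.le
  have eN : √(N : ℝ) ^ 2 = N := Real.sq_sqrt hN'.le
  set c : ℝ := √(K : ℝ) / (δ * √(N : ℝ)) with hc
  have ec : c ^ 2 = K / (δ ^ 2 * N) := by rw [hc, div_pow, mul_pow, eK, eN]
  set n : Fin N → ℤ := fun i => rd (c * tr (N - K) x i) with hn
  have h0 : ∀ j : Fin N, (j : ℕ) < N - K → n j = 0 := fun j hj => by
    simp only [hn, tr, if_neg (not_le.2 hj), mul_zero, rd_zero]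
  refine ⟨n, mem_net h0 ?_, ?_⟩
  · have h1 : ∑ i, (n i : ℝ) ^ 2 ≤ ∑ i, c ^ 2 * (x i * x i) := by
      refine Finset.sum_le_sum fun i _ => (rd_sq _).1.trans ?_
      rw [mul_pow]
      refine mul_le_mul_of_nonneg_left ?_ (sq_nonneg _)
      unfold tr
      split_ifs
      · exact (sq _).le
      · simpa using mul_self_nonneg _
    rw [← Finset.mul_sum] at h1
    have h2 : ∑ i, x i * x i = N := hx
    rw [h2, ec] at h1
    refine h1.trans (le_of_eq ?_)
    field_simp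
  · have h4 : ((Finset.univ.filter fun i : Fin N => N - K ≤ (i : ℕ)).card : ℝ) = K := by
      rw [card_ge (Nat.sub_le N K), Nat.cast_sub hKN, sub_sub_cancel]
    have h5 : N * δ ^ 2 / 2 =
        ∑ i : Fin N, if N - K ≤ (i : ℕ) then N * δ ^ 2 / (2 * K) else (0 : ℝ) := by
      rw [← Finset.sum_filter, Finset.sum_const, nsmul_eq_mul, h4]
      field_simp
    rw [h5, dotProduct, dotProduct, Finset.mul_sum, Finset.mul_sum, Finset.sum_div, Finset.sum_div,
      ← Finset.sum_sub_distrib, ← Finset.sum_add_distrib]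
    refine Finset.sum_le_sum fun i _ => ?_
    split_ifs with hi
    · have h1 := (rd_sq (c * tr (N - K) x i)).2
      have e1 : tr (N - K) x i = x i := if_pos hi
      have e2 : (rd (c * tr (N - K) x i) : ℝ) = n i := rfl
      rw [e2, e1] at h1
      have e3 : x i - √(N : ℝ) * vec δ K n i = c⁻¹ * (c * x i - n i) := by
        unfold vec
        rw [hc]
        field_simp
      have e4 : (x i - √(N : ℝ) * vec δ K n i) ^ 2 ≤ N * δ ^ 2 / K := by
        rw [e3, mul_pow, inv_pow, ec]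
        refine (mul_le_of_le_one_right (by positivity) h1).trans (le_of_eq ?_)
        field_simp
      rw [sub_sq, mul_pow, eN] at e4
      have e5 : N * δ ^ 2 / (2 * K) = N * δ ^ 2 / K / 2 := by field_simp
      rw [e5]
      nlinarith
    · simp [vec, h0 i (not_le.1 hi)]

theorem polar {m : ℕ} (hm : m < N) {v : Fin N → ℝ} (hv : ∀ j : Fin N, (j : ℕ) < m → v j = 0) :
    ∃ θ : Fin N → ℝ, θ ⬝ᵥ θ = 1 ∧ (∀ j : Fin N, (j : ℕ) < m → θ j = 0) ∧ v = √(v ⬝ᵥ v) • θ := by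
  have e : tr m v = v := funext fun j => by
    unfold tr
    split_ifs with h
    · rfl
    · exact (hv j (not_le.1 h)).symm
  by_cases h : v = 0
  · refine ⟨Pi.single ⟨m, hm⟩ 1, by simp, fun j hj => ?_, by simp [h]⟩
    exact Pi.single_eq_of_ne (fun h' => by rw [h'] at hj; exact lt_irrefl _ hj) _
  · refine ⟨nv m v, Conc.nv_unit (by rwa [e]), fun j hj => Conc.nv_zero_of_lt hj, ?_⟩
    have := tr_eq m v
    unfold rad at this
    rwa [e] at this

/-- the free energy with one outlier, averaged over its direction -/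
noncomputable def Psi (β : ℝ) (a : Fin N → ℝ) (d : ℝ) (m : ℕ) (U : OG N) : ℝ :=
  ∫ g, LG β a (fun y => d / 2 * y ^ 2) U (nv m g) ∂(gam N)

/-- the free energy in the field of a point of the net -/
noncomputable def Fn (β : ℝ) (a : Fin N → ℝ) (d : ℝ) (v : Fin N → ℝ) (U : OG N) : ℝ :=
  LG β a (fun y => d * √(N : ℝ) * y) U v - d * N * (v ⬝ᵥ v) / 2

theorem Psi_bdd (β : ℝ) (a : Fin N → ℝ) (d : ℝ) (m : ℕ) : ∃ B, ∀ U, |Psi β a d m U| ≤ B := by
  obtain ⟨B, hB⟩ := LG_bdd β a (G := fun y => d / 2 * y ^ 2) (by fun_prop)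
  refine ⟨B, fun U => ?_⟩
  have := norm_integral_le_of_norm_le_const (μ := gam N)
    (f := fun g => LG β a (fun y => d / 2 * y ^ 2) U (nv m g))
    (C := B) (ae_of_all _ fun g => hB _ _ (Conc.nv_le_one m g))
  simpa [Psi] using this

theorem meas_nv (β : ℝ) (a : Fin N → ℝ) {G : ℝ → ℝ} (hG : Continuous G) (U : OG N) (m : ℕ) :
    Measurable fun g => LG β a G U (nv m g) :=
  ((continuous_LG β a hG).comp (Continuous.prodMk_right U)).measurable.comp (Conc.measurable_nv m)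

theorem Psi_inv {m : ℕ} {A : ℝ} {a : Fin N → ℝ} (ha : ∀ i : Fin N, m ≤ (i : ℕ) → a i = A)
    (β d : ℝ) {h : OG N} (hh : h ∈ Fx N m) (U : OG N) :
    Psi β a d m (h * U) = Psi β a d m U := by
  have mQ := meas_nv β a (G := fun y => d / 2 * y ^ 2) (by fun_prop) (h * U) m
  unfold Psi
  rw [← Conc.int_rot mQ h]
  refine integral_congr_ae (ae_of_all _ fun g => ?_)
  simp only
  rw [Conc.nv_mulVec hh, LG_inv ha β _ hh]

/-- The union bound over the net, pointwise in `U`. -/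
theorem LZ_le_net {δ : ℝ} (hδ : 0 < δ) {K : ℕ} (hK : 0 < K) (hKN : K ≤ N) {β D : ℝ}
    (hd : 0 ≤ β * D) (a : Fin N → ℝ) (U : OG N) {Y Λ : ℝ}
    (hc : ((net N (N - K) (K / δ ^ 2)).card : ℝ) ≤ Real.exp Λ)
    (hY : ∀ n ∈ net N (N - K) (K / δ ^ 2), Fn β a (β * D) (vec δ K n) U ≤ Y) :
    LZ β (fun i => a i + if N - K ≤ (i : ℕ) then D else 0) U.1 ≤
      Y + Λ + β * D * N * δ ^ 2 / 2 := by
  unfold LZ
  rw [Real.log_le_iff_le_exp (sum_pos' _)]
  calc _ ≤ ∑ σ ∈ cube N, ∑ n ∈ net N (N - K) (K / δ ^ 2), Real.exp (en β a U.1 σ +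
        β * D * √(N : ℝ) * (vec δ K n ⬝ᵥ (U.1 *ᵥ σ))) *
          Real.exp (-(β * D * N * (vec δ K n ⬝ᵥ vec δ K n) / 2) + β * D * N * δ ^ 2 / 2) := by
        refine Finset.sum_le_sum fun σ hσ => ?_
        obtain ⟨n, hn, h1⟩ := exists_net hδ hK hKN (dot_x U hσ)
        refine le_trans ?_ (Finset.single_le_sum (f := fun n => Real.exp (en β a U.1 σ +
          β * D * √(N : ℝ) * (vec δ K n ⬝ᵥ (U.1 *ᵥ σ))) * Real.exp (-(β * D * N *
            (vec δ K n ⬝ᵥ vec δ K n) / 2) + β * D * N * δ ^ 2 / 2)) (fun _ _ => by positivity) hn)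
        rw [← Real.exp_add]
        refine Real.exp_le_exp.2 ?_
        have e : en β (fun i => a i + if N - K ≤ (i : ℕ) then D else 0) U.1 σ = en β a U.1 σ +
            β * D * ((∑ i : Fin N, if N - K ≤ (i : ℕ) then (U.1 *ᵥ σ) i ^ 2 else 0) / 2) := by
          simp only [en, add_mul, Finset.sum_add_distrib, ite_mul, zero_mul]
          have e2 : ∑ i : Fin N, (if N - K ≤ (i : ℕ) then D * (U.1 *ᵥ σ) i ^ 2 else 0) =
              D * ∑ i : Fin N, if N - K ≤ (i : ℕ) then (U.1 *ᵥ σ) i ^ 2 else 0 := by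
            rw [Finset.mul_sum]
            exact Finset.sum_congr rfl fun i _ => by split_ifs <;> simp
          rw [e2]
          ring
        rw [e]
        have h2 := mul_le_mul_of_nonneg_left h1 hd
        linarith
    _ = ∑ n ∈ net N (N - K) (K / δ ^ 2),
          Real.exp (Fn β a (β * D) (vec δ K n) U + β * D * N * δ ^ 2 / 2) := by
        rw [Finset.sum_comm]
        refine Finset.sum_congr rfl fun n _ => ?_
        rw [← Finset.sum_mul]
        simp only [Fn, LG, lse]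
        rw [sub_eq_add_neg, add_assoc, Real.exp_add (Real.log _), Real.exp_log (sum_pos' _)]
    _ ≤ ∑ n ∈ net N (N - K) (K / δ ^ 2), Real.exp (Y + β * D * N * δ ^ 2 / 2) :=
        Finset.sum_le_sum fun n hn => Real.exp_le_exp.2 (by linarith [hY n hn])
    _ ≤ _ := by
        rw [Finset.sum_const, nsmul_eq_mul, add_right_comm, Real.exp_add _ Λ, mul_comm]
        exact mul_le_mul_of_nonneg_left hc (Real.exp_pos _).le

theorem max_le_soft {ι : Type*} {W : Finset ι} {F : ι → ℝ} {s : ℝ} (hs : 0 < s) (ψ L : ℝ) {n : ι}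
    (hn : n ∈ W) :
    F n ≤ ψ + L / s + Real.exp (-L) / s * ∑ n ∈ W, Real.exp (s * (F n - ψ)) := by
  have h1 := Finset.single_le_sum (f := fun n => Real.exp (s * (F n - ψ)))
    (fun _ _ => (Real.exp_pos _).le) hn
  have h2 := Real.add_one_le_exp (s * (F n - ψ) + -L)
  rw [Real.exp_add] at h2
  have h3 := mul_le_mul_of_nonneg_right h1 (Real.exp_pos (-L)).le
  refine le_of_mul_le_mul_left ?_ hs
  have e : s * (ψ + L / s + Real.exp (-L) / s * ∑ n ∈ W, Real.exp (s * (F n - ψ))) =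
      s * ψ + L + (∑ n ∈ W, Real.exp (s * (F n - ψ))) * Real.exp (-L) := by
    field_simp
  rw [e]
  linarith

section

variable [MeasurableSpace (OG N)] [BorelSpace (OG N)]

theorem meas_LG (β : ℝ) (a : Fin N → ℝ) {G : ℝ → ℝ} (hG : Continuous G) :
    Measurable fun p : OG N × (Fin N → ℝ) => LG β a G p.1 p.2 :=
  (continuous_LG β a hG).measurable

attribute [local irreducible] LG

theorem meas_Psi (β : ℝ) (a : Fin N → ℝ) (d : ℝ) (m : ℕ) : Measurable (Psi β a d m) := by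
  have h0 : Measurable fun p : OG N × (Fin N → ℝ) => (p.1, nv m p.2) :=
    measurable_fst.prodMk ((Conc.measurable_nv m).comp measurable_snd)
  have h := (meas_LG β a (G := fun y => d / 2 * y ^ 2) (by fun_prop)).comp h0
  exact (h.stronglyMeasurable.integral_prod_right').measurable

end

variable [MeasurableSpace (OG N)] [BorelSpace (OG N)] (ν : Measure (OG N))
  [IsProbabilityMeasure ν] [ν.IsMulLeftInvariant]

theorem int_Psi {m : ℕ} (hm : m < N) {A : ℝ} {a : Fin N → ℝ}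
    (ha : ∀ i : Fin N, m ≤ (i : ℕ) → a i = A) (β D : ℝ) (k : Fin N) (hk' : m ≤ (k : ℕ)) :
    ∫ U, Psi β a (β * D) m U ∂ν = FZ ν β (fun i => a i + if i = k then D else 0) := by
  have cQ : Continuous fun y : ℝ => β * D / 2 * y ^ 2 := by fun_prop
  obtain ⟨B, hB⟩ := LG_bdd β a cQ
  unfold Psi
  rw [← swap ν hm (Φ := LG β a _) (meas_LG β a cQ) hB
    (fun h hh U θ => LG_inv ha β _ hh U θ) (θ := Pi.single k 1) (by simp) fun j hj =>
      Pi.single_eq_of_ne (fun h' => by rw [h'] at hj; omega) _]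
  refine integral_congr_ae (ae_of_all _ fun U => ?_)
  simp only [LG, lse, LZ]
  congr 1
  refine Finset.sum_congr rfl fun σ _ => ?_
  congr 1
  simp only [en, add_mul, Finset.sum_add_distrib, ite_mul, zero_mul, Finset.sum_ite_eq',
    Finset.mem_univ, if_true, Conc.single_dot]
  ring

theorem exp_Fn {m : ℕ} (hm : m < N) {A : ℝ} {a : Fin N → ℝ}
    (ha : ∀ i : Fin N, m ≤ (i : ℕ) → a i = A) (β : ℝ) {d s : ℝ} (hd : 0 ≤ d) (hs : 0 ≤ s)
    {v : Fin N → ℝ} (hv : ∀ j : Fin N, (j : ℕ) < m → v j = 0) (hv1 : v ⬝ᵥ v ≤ 1) :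
    Integrable (fun U => Real.exp (s * (Fn β a d v U - Psi β a d m U))) ν ∧
      ∫ U, Real.exp (s * (Fn β a d v U - Psi β a d m U)) ∂ν ≤
        Real.exp (4 * s ^ 2 * (d * N) ^ 2 / ((N : ℝ) - m) +
          10 * s * (d * N) / √((N : ℝ) - m)) := by
  obtain ⟨θ, h1, h2, h3⟩ := polar hm hv
  obtain ⟨ρ, hρ⟩ : ∃ ρ, ρ = √(v ⬝ᵥ v) := ⟨_, rfl⟩
  rw [← hρ] at h3
  have hρ0 : 0 ≤ ρ := hρ ▸ Real.sqrt_nonneg _
  have hρ1 : ρ ≤ 1 := hρ ▸ Real.sqrt_le_one.2 hv1
  have hρ2 : ρ ^ 2 = v ⬝ᵥ v := hρ ▸ Real.sq_sqrt (dot_nn _)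
  have cG : Continuous fun y : ℝ => d * √(N : ℝ) * ρ * y := by fun_prop
  obtain ⟨B', hB'⟩ := LG_bdd β a cG
  obtain ⟨B, hB⟩ := Psi_bdd β a d m
  obtain ⟨Φ, hΦ⟩ : ∃ Φ : OG N → (Fin N → ℝ) → ℝ, Φ = fun U θ' => Real.exp (s *
    (LG β a (fun y => d * √(N : ℝ) * ρ * y) U θ' - d * N * ρ ^ 2 / 2 - Psi β a d m U)) := ⟨_, rfl⟩
  have eF : ∀ U, Real.exp (s * (Fn β a d v U - Psi β a d m U)) = Φ U θ := fun U => by
    have e : LG β a (fun y => d * √(N : ℝ) * y) U v =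
        LG β a (fun y => d * √(N : ℝ) * ρ * y) U θ := by
      unfold LG
      congr 1
      funext σ
      conv_lhs => rw [h3]
      simp only [smul_dotProduct, smul_eq_mul]
      ring
    simp only [Fn, hΦ, e, hρ2]
  have mΦ : Measurable fun p : OG N × (Fin N → ℝ) => Φ p.1 p.2 := by
    rw [hΦ]
    exact ((((meas_LG β a cG).sub_const _).sub
      ((meas_Psi β a d m).comp measurable_fst)).const_mul s).exp
  have bΦ : ∀ U θ', θ' ⬝ᵥ θ' ≤ 1 → |Φ U θ'| ≤ Real.exp (s * (B' + B)) := fun U θ' h => by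
    rw [hΦ, abs_of_pos (Real.exp_pos _)]
    refine Real.exp_le_exp.2 (mul_le_mul_of_nonneg_left ?_ hs)
    have h4 := (abs_le.1 (hB' U θ' h)).2
    have h5 := (abs_le.1 (hB U)).1
    have h6 : 0 ≤ d * N * ρ ^ 2 / 2 := by positivity
    linarith
  simp_rw [eF]
  refine ⟨Conc.intg ν (mΦ.comp (measurable_id.prodMk measurable_const)) _
    fun U => bΦ U θ h1.le, ?_⟩
  rw [swap ν hm mΦ bΦ (fun h hh U θ' => by
    simp only [hΦ, LG_inv ha β _ hh, Psi_inv ha β d hh]) h1 h2]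
  refine le_trans (le_abs_self _) (le_trans (norm_integral_le_of_norm_le_const (μ := ν)
    (f := fun U => ∫ g, Φ U (nv m g) ∂(gam N)) (ae_of_all _ fun U => ?_)) (by simp; rfl))
  rw [hΦ, Real.norm_eq_abs, abs_of_nonneg (integral_nonneg fun g => (Real.exp_pos _).le)]
  exact mgf_dir hm β a hd hρ0 hρ1 hs U

/-- **Key inequality.** -/
theorem key {δ C : ℝ} (hδ : 0 < δ) (hC1 : 1 ≤ C)
    (hC : ∀ s : Finset ℤ, ∑ j ∈ s, Real.exp (-(δ ^ 2 * (j : ℝ) ^ 2)) ≤ C) {K m : ℕ} (hK : 0 < K)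
    (hm : m + K ≤ N) {β D A s : ℝ} (hβ : 0 ≤ β) (hD : 0 ≤ D) (hs : 0 < s) {a : Fin N → ℝ}
    (ha : ∀ i : Fin N, m ≤ (i : ℕ) → a i = A) (k : Fin N) (hk' : m ≤ (k : ℕ)) :
    FZ ν β (fun i => a i + if N - K ≤ (i : ℕ) then D else 0) ≤
      FZ ν β (fun i => a i + if i = k then D else 0) + β * D * N * δ ^ 2 / 2 +
        K * Real.log (Real.exp 1 * C) + (K * Real.log (Real.exp 1 * C) +
          (4 * s ^ 2 * (β * D * N) ^ 2 / ((N : ℝ) - m) +
            10 * s * (β * D * N) / √((N : ℝ) - m)) + 1) / s := by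
  have hmN : m < N := by omega
  have hKN : K ≤ N := by omega
  have hd : 0 ≤ β * D := mul_nonneg hβ hD
  obtain ⟨Λ, hΛ⟩ : ∃ Λ, Λ = K * Real.log (Real.exp 1 * C) := ⟨_, rfl⟩
  obtain ⟨Bm, hBm⟩ : ∃ Bm, Bm = 4 * s ^ 2 * (β * D * N) ^ 2 / ((N : ℝ) - m) +
    10 * s * (β * D * N) / √((N : ℝ) - m) := ⟨_, rfl⟩
  have hcard : ((net N (N - K) (K / δ ^ 2)).card : ℝ) ≤ Real.exp Λ := by
    rw [hΛ, Real.exp_nat_mul, Real.exp_log (by positivity)]
    exact card_net hδ hC hKN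
  have hexp := fun n (hn : n ∈ net N (N - K) (K / δ ^ 2)) =>
    exp_Fn ν hmN ha β hd hs.le (v := vec δ K n)
      (fun j hj => by simp [vec, net_zero hn (j := j) (by omega)]) (vec_sq hδ hK hn)
  rw [← hBm] at hexp
  rw [← hΛ, ← hBm, ← int_Psi ν hmN ha β D k hk']
  obtain ⟨B, hB⟩ := Psi_bdd β a (β * D) m
  have i1 : Integrable (Psi β a (β * D) m) ν := Conc.intg ν (meas_Psi ..) B hB
  have hpt := fun U : OG N => LZ_le_net hδ hK hKN hd a U hcard fun n hn =>
    max_le_soft (F := fun n => Fn β a (β * D) (vec δ K n) U) hs (Psi β a (β * D) m U) (Λ + Bm) hn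
  generalize net N (N - K) (K / δ ^ 2) = W at hcard hexp hpt
  generalize Psi β a (β * D) m = Ψ at hexp hpt i1 ⊢
  have i2 := integrable_finsetSum _ fun n hn => (hexp n hn).1
  have h2 : ∫ U, ∑ n ∈ W, Real.exp (s * (Fn β a (β * D) (vec δ K n) U - Ψ U)) ∂ν ≤
      Real.exp (Λ + Bm) := by
    rw [integral_finsetSum _ fun n hn => (hexp n hn).1]
    refine (Finset.sum_le_sum fun n hn => (hexp n hn).2).trans ?_
    rw [Finset.sum_const, nsmul_eq_mul, Real.exp_add]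
    exact mul_le_mul_of_nonneg_right hcard (Real.exp_pos _).le
  generalize hS : (fun U => ∑ n ∈ W, Real.exp (s * (Fn β a (β * D) (vec δ K n) U - Ψ U))) = S
    at i2 h2
  have hS' : ∀ U, ∑ n ∈ W, Real.exp (s * (Fn β a (β * D) (vec δ K n) U - Ψ U)) = S U :=
    fun U => congrFun hS U
  simp only [hS'] at hpt
  have i3 : Integrable (fun U => Ψ U + Real.exp (-(Λ + Bm)) / s * S U) ν :=
    i1.add (i2.const_mul _)
  have := P166W95.compact_orth N
  have h1 : FZ ν β (fun i => a i + if N - K ≤ (i : ℕ) then D else 0) ≤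
      ∫ U, (Ψ U + Real.exp (-(Λ + Bm)) / s * S U + ((Λ + Bm) / s + Λ + β * D * N * δ ^ 2 / 2)) ∂ν :=
    integral_mono ((continuous_LZ β _).integrable_of_hasCompactSupport
      (HasCompactSupport.of_compactSpace _)) (i3.add (integrable_const _)) fun U => by
        linarith [hpt U]
  rw [integral_add i3 (integrable_const _), integral_add i1 (i2.const_mul _),
    integral_const_mul] at h1
  simp only [integral_const, probReal_univ, smul_eq_mul, one_mul] at h1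
  have h3 := mul_le_mul_of_nonneg_left h2 (by positivity : 0 ≤ Real.exp (-(Λ + Bm)) / s)
  have e : Real.exp (-(Λ + Bm)) / s * Real.exp (Λ + Bm) = 1 / s := by
    rw [div_mul_eq_mul_div, ← Real.exp_add, neg_add_cancel, Real.exp_zero]
  rw [e] at h3
  rw [add_div (Λ + Bm) 1 s]
  linarith

end Vale.Agent.N166
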