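import Vale.Agent.N166.Mean

/-! P166, outliers: the limit theorem, and the effect of a large outlier. -/

namespace Vale.Agent.N166

open MeasureTheory ProbabilityTheory Matrix Filter Topology Vale.Agent.P166
open Vale.Agent.P166.Conc (OG Fx tr nv gam)
open Vale.Agent.P166W95 (Orth IsHaarProb HaarDistributed coupling empirical existsUnique_haar)

theorem int_abs : ∫ x, |x| ∂(gaussianReal 0 1) = √(2 / Real.pi) := by
  rw [integral_gaussianReal_eq_integral_smul (by norm_num)]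
  have h1 : ∀ x : ℝ, gaussianPDFReal 0 1 x • |x| = (fun t : ℝ => (√(2 * Real.pi))⁻¹ *
      (t ^ (1 : ℝ) * Real.exp (-(1 / 2) * t ^ (2 : ℝ)))) |x| := by
    intro x
    simp only [gaussianPDFReal, smul_eq_mul, Real.rpow_one]
    have : |x| ^ (2 : ℝ) = x ^ 2 := by
      rw [Real.rpow_ofNat]
      exact sq_abs x
    rw [this]
    have h2 : -(x - 0) ^ 2 / (2 * ((1 : NNReal) : ℝ)) = -(1 / 2) * x ^ 2 := by
      simp only [NNReal.coe_one]
      ring
    rw [h2]
    simp only [NNReal.coe_one, mul_one]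
    ring
  simp_rw [h1]
  rw [integral_comp_abs (f := fun t : ℝ => (√(2 * Real.pi))⁻¹ *
    (t ^ (1 : ℝ) * Real.exp (-(1 / 2) * t ^ (2 : ℝ)))), integral_const_mul,
    integral_rpow_mul_exp_neg_mul_rpow (by norm_num) (by norm_num) (by norm_num),
    show -((1 : ℝ) + 1) / 2 = -1 by norm_num, show ((1 : ℝ) + 1) / 2 = 1 by norm_num,
    Real.Gamma_one, Real.rpow_neg_one, Real.sqrt_div (by norm_num), Real.sqrt_mul (by norm_num)]
  have h2 : √(2 : ℝ) * √(2 : ℝ) = 2 := Real.mul_self_sqrt (by norm_num)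
  have h5 : √(2 : ℝ) ≠ 0 := by positivity
  have h6 : √Real.pi ≠ 0 := by have := Real.pi_pos; positivity
  field_simp
  nlinarith

section

variable {N : ℕ}

/-- the `ℓ¹` norm -/
noncomputable def l1 (v : Fin N → ℝ) : ℝ := ∑ i, |v i|

theorem l1_sq_le (v : Fin N → ℝ) : l1 v ^ 2 ≤ N * (v ⬝ᵥ v) := by
  have h := sq_sum_le_card_mul_sum_sq (s := Finset.univ) (f := fun i => |v i|)
  simp only [sq_abs, Finset.card_univ, Fintype.card_fin] at h
  simpa only [l1, dotProduct, sq] using h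

theorem int_l1_nv : 2 / Real.pi * N ≤ ∫ g, l1 (nv 0 g) ^ 2 ∂(gam N) := by
  obtain ⟨c, hc⟩ : ∃ c, c = √(2 / Real.pi) := ⟨_, rfl⟩
  have hπ : 0 < 2 / Real.pi := div_pos two_pos Real.pi_pos
  have hc0 : 0 < c := hc ▸ Real.sqrt_pos.2 hπ
  have hc2 : c ^ 2 = 2 / Real.pi := hc ▸ Real.sq_sqrt hπ.le
  have h1 : ∀ i : Fin N, Integrable (fun g : Fin N → ℝ => |g i|) (gam N) ∧
      ∫ g, |g i| ∂(gam N) = c := fun i => by
    have h2 : MeasurePreserving (Function.eval i) (gam N) (gaussianReal 0 1) :=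
      measurePreserving_eval (fun _ => gaussianReal 0 1) i
    have h3 : Integrable (fun x : ℝ => |x|) (gaussianReal 0 1) :=
      (memLp_one_iff_integrable.1 (memLp_id_gaussianReal (μ := 0) (v := 1) 1)).abs
    refine ⟨h2.integrable_comp_of_integrable h3, ?_⟩
    rw [hc, ← int_abs, ← h2.map_eq, integral_map h2.measurable.aemeasurable (by fun_prop)]
  have cl : Continuous fun v : Fin N → ℝ => l1 v ^ 2 := by
    unfold l1
    fun_prop
  have i1 : Integrable (fun g : Fin N → ℝ => l1 (nv 0 g) ^ 2) (gam N) :=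
    Conc.intg _ (cl.measurable.comp (Conc.measurable_nv 0)) N fun g => by
      rw [abs_of_nonneg (sq_nonneg _)]
      exact (l1_sq_le _).trans (mul_le_of_le_one_right (Nat.cast_nonneg N) (Conc.nv_le_one 0 g))
  have i2 : Integrable (fun g : Fin N → ℝ => rad 0 g ^ 2) (gam N) := (lip_rad 0).integrable_sq
  have h4 : ∫ g, 2 * c * ∑ i, |g i| ∂(gam N) ≤
      ∫ g, (c ^ 2 * rad 0 g ^ 2 + l1 (nv 0 g) ^ 2) ∂(gam N) := by
    refine integral_mono ((integrable_finsetSum _ fun i _ => (h1 i).1).const_mul _)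
      ((i2.const_mul _).add i1) fun g => ?_
    have e : ∑ i, |g i| = rad 0 g * l1 (nv 0 g) := by
      rw [l1, Finset.mul_sum]
      refine Finset.sum_congr rfl fun i _ => ?_
      have h5 : g i = rad 0 g * nv 0 g i := by simpa [tr] using congrFun (tr_eq 0 g) i
      have h6 : 0 ≤ rad 0 g := Real.sqrt_nonneg _
      rw [h5, abs_mul, abs_of_nonneg h6]
    simp only
    rw [e]
    nlinarith [sq_nonneg (c * rad 0 g - l1 (nv 0 g))]
  rw [integral_const_mul, integral_finsetSum _ fun i _ => (h1 i).1,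
    integral_add (i2.const_mul _) i1, integral_const_mul, int_rad_sq (Nat.zero_le N)] at h4
  simp only [(h1 _).2, Finset.sum_const, Finset.card_univ, Fintype.card_fin, nsmul_eq_mul,
    Nat.cast_zero, sub_zero] at h4
  rw [← hc2]
  nlinarith

theorem LZ_ge {β A B : ℝ} (hβ : 0 ≤ β) {a : Fin N → ℝ} (hA : ∀ i, A ≤ a i) {k : Fin N}
    (hB : B ≤ a k) (U : OG N) :
    β / 2 * (A * N + (B - A) * l1 (U.1ᵀ *ᵥ Pi.single k 1) ^ 2) ≤ LZ β a U.1 := by
  set v := U.1ᵀ *ᵥ Pi.single k 1 with hv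
  set σ : Fin N → ℝ := fun i => if 0 ≤ v i then 1 else -1 with hσ
  have h1 : σ ∈ cube N := Fintype.mem_piFinset.2 fun i => by
    simp only [hσ]
    split_ifs <;> simp
  have h2 : (U.1 *ᵥ σ) k = l1 v := by
    rw [← Conc.dot_single k (U.1 *ᵥ σ), Conc.OG.dot_left, ← hv]
    refine Finset.sum_congr rfl fun i _ => ?_
    simp only [hσ]
    split_ifs with h
    · rw [one_mul, abs_of_nonneg h]
    · rw [neg_one_mul, abs_of_neg (not_le.1 h)]
  have h3 : A * N + (B - A) * l1 v ^ 2 ≤ ∑ i, a i * (U.1 *ᵥ σ) i ^ 2 := by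
    have h4 : ∑ i, a i * (U.1 *ᵥ σ) i ^ 2 = A * N + ∑ i, (a i - A) * (U.1 *ᵥ σ) i ^ 2 := by
      rw [← norm_rot U h1, Finset.mul_sum, ← Finset.sum_add_distrib]
      exact Finset.sum_congr rfl fun i _ => by ring
    have h5 := Finset.single_le_sum (f := fun i => (a i - A) * (U.1 *ᵥ σ) i ^ 2)
      (fun i _ => mul_nonneg (sub_nonneg.2 (hA i)) (sq_nonneg _)) (Finset.mem_univ k)
    rw [h2] at h5
    nlinarith [sq_nonneg (l1 v)]
  refine (mul_le_mul_of_nonneg_left h3 (by positivity)).trans ?_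
  rw [LZ, Real.le_log_iff_exp_le (sum_pos' _)]
  exact Finset.single_le_sum (f := fun σ => Real.exp (en β a U.1 σ))
    (fun _ _ => (Real.exp_pos _).le) h1

variable [MeasurableSpace (OG N)] [BorelSpace (OG N)] (ν : Measure (OG N))
  [IsProbabilityMeasure ν] [ν.IsMulLeftInvariant]

theorem mp_ge {β A B : ℝ} (hβ : 0 ≤ β) (hAB : A ≤ B) {a : Fin N → ℝ} (hA : ∀ i, A ≤ a i)
    {k : Fin N} (hB : B ≤ a k) :
    β / 2 * (A + 2 / Real.pi * (B - A)) - Real.log 2 ≤ mp ν β a := by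
  have hN : 0 < N := k.pos
  have hN' : (0 : ℝ) < N := by exact_mod_cast hN
  have cΦ : Continuous fun p : OG N × (Fin N → ℝ) => l1 (p.1.1ᵀ *ᵥ p.2) ^ 2 := by
    have h1 : Continuous fun p : OG N × (Fin N → ℝ) => p.1.1ᵀ *ᵥ p.2 :=
      (continuous_subtype_val.comp continuous_fst).matrix_transpose.matrix_mulVec continuous_snd
    have h2 : Continuous fun v : Fin N → ℝ => l1 v ^ 2 := by
      unfold l1
      fun_prop
    exact h2.comp h1
  have bΦ : ∀ (U : OG N) (θ : Fin N → ℝ), θ ⬝ᵥ θ ≤ 1 → |l1 (U.1ᵀ *ᵥ θ) ^ 2| ≤ N := fun U θ h => by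
    rw [abs_of_nonneg (sq_nonneg _)]
    refine (l1_sq_le _).trans (mul_le_of_le_one_right hN'.le ?_)
    rwa [← Conc.OG.coe_inv, Conc.OG.dot]
  have h1 : 2 / Real.pi * N ≤ ∫ U, l1 (U.1ᵀ *ᵥ Pi.single k 1) ^ 2 ∂ν := by
    rw [swap ν hN (Φ := fun U θ => l1 (U.1ᵀ *ᵥ θ) ^ 2) cΦ.measurable bΦ
      (fun h _ U θ => by
        rw [Conc.OG.coe_mul, Matrix.transpose_mul, Matrix.mulVec_mulVec, Matrix.mul_assoc,
          Conc.OG.transpose_mul, Matrix.mul_one]) (by simp) fun j hj => absurd hj (by simp)]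
    have h2 : ∀ U : OG N, ∫ g, l1 (U.1ᵀ *ᵥ nv 0 g) ^ 2 ∂(gam N) =
        ∫ g, l1 (nv 0 g) ^ 2 ∂(gam N) := fun U => by
      have h3 : Measurable fun g : Fin N → ℝ => l1 (nv 0 g) ^ 2 := by
        have := Conc.measurable_nv (n := N) 0
        unfold l1
        fun_prop
      rw [← Conc.int_rot h3 U⁻¹]
      refine integral_congr_ae (ae_of_all _ fun g => ?_)
      simp only
      rw [Conc.nv_mulVec (m := 0) (fun j hj => absurd hj (by simp)), Conc.OG.coe_inv]
    simp only [h2, integral_const, probReal_univ, smul_eq_mul, one_mul]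
    exact int_l1_nv
  have i1 : Integrable (fun U : OG N => l1 (U.1ᵀ *ᵥ Pi.single k 1) ^ 2) ν :=
    Conc.intg ν (cΦ.comp (Continuous.prodMk_left _)).measurable N fun U => bΦ U _ (by simp)
  have h4 := integral_mono (((integrable_const _).add (i1.const_mul _)).const_mul _)
    (integrable_LZ ν hβ a) fun U => LZ_ge hβ hA hB U
  simp only [Pi.add_apply] at h4
  rw [integral_const_mul, integral_add (integrable_const _) (i1.const_mul _),
    integral_const_mul (B - A)] at h4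
  simp only [integral_const, probReal_univ, smul_eq_mul, one_mul] at h4
  have h5 : β / 2 * (A * N + (B - A) * (2 / Real.pi * N)) ≤ FZ ν β a :=
    le_trans (mul_le_mul_of_nonneg_left (by
      linarith [mul_le_mul_of_nonneg_left h1 (sub_nonneg.2 hAB)]) (by positivity)) h4
  rw [mp_eq ν hN hβ, one_div_mul_eq_div, sub_le_sub_iff_right, le_div_iff₀ hN']
  linarith

end

theorem wk_iff (Λ : (N : ℕ) → Fin N → ℝ) (μ : ProbabilityMeasure ℝ) :
    Tendsto (fun N : ℕ => empirical (Λ (N + 1))) atTop (𝓝 μ) ↔ Wk Λ μ := by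
  rw [ProbabilityMeasure.tendsto_iff_forall_integral_tendsto]
  refine forall_congr' fun f => ?_
  rw [← tendsto_add_atTop_iff_nat (f := fun N : ℕ => (1 / (N : ℝ)) * ∑ i, f (Λ N i)) 1]
  exact tendsto_congr fun N => H542.integral_emp (Λ (N + 1)) f

theorem exists_spiked' (μ : ProbabilityMeasure ℝ) (hμ : IsCompact (μ : Measure ℝ).support)
    {lam : ℝ} (hl : sSup (μ : Measure ℝ).support ≤ lam) : ∃ Λ : (N : ℕ) → Fin N → ℝ,
      Tendsto (fun N : ℕ => empirical (Λ (N + 1))) atTop (𝓝 μ) ∧ (∃ A, ∀ N i, A ≤ Λ N i) ∧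
      Tendsto (fun N : ℕ => ⨆ i, Λ (N + 1) i) atTop (𝓝 lam) := by
  obtain ⟨Λ, h1, h2, h3⟩ := exists_spiked hμ hl
  exact ⟨Λ, (wk_iff Λ μ).2 h1, ⟨_, h2⟩, by simp only [h3, tendsto_const_nhds]⟩

/-- A large outlier changes the limit. -/
theorem value_ge {μ : Measure ℝ} [IsProbabilityMeasure μ] (hμ : IsCompact μ.support) {β : ℝ}
    (hβ : 0 < β) {lam : ℝ} (hl : sSup μ.support ≤ lam) :
    β / 2 * (sInf μ.support + 2 / Real.pi * (lam - sInf μ.support)) - Real.log 2 ≤
      valueR β (spiked μ lam) := by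
  let _ : ∀ N, MeasurableSpace (Orth N) := fun N => borel (Orth N)
  have : ∀ N, BorelSpace (Orth N) := fun N => ⟨rfl⟩
  choose ν hν using fun N => (existsUnique_haar N).exists
  have : ∀ N, IsProbabilityMeasure (ν N) := fun N => (hν N).1
  have : ∀ N, (ν N).IsMulLeftInvariant := fun N => (hν N).2.toIsMulLeftInvariant
  obtain ⟨p, hp⟩ := H542.exists_PP ν
  obtain ⟨Λ, h1, h2, h3⟩ := exists_spiked hμ hl
  have h4 : Tendsto (fun N => ⨆ i, Λ N i) atTop (𝓝 lam) :=
    (tendsto_add_atTop_iff_nat 1).1 (by simp only [h3, tendsto_const_nhds])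
  refine ge_of_tendsto' ((tendsto_add_atTop_iff_nat 1).2 (mean_lim (hp β hβ) hβ hμ h1 h4 h2))
    fun N => ?_
  obtain ⟨k, hk⟩ := exists_eq_ciSup_of_finite (f := Λ (N + 1))
  exact mp_ge _ hβ.le ((F.rt2_inf_le_sup hμ).trans hl) (h2 _) (k := k) (by rw [hk, h3])

/-- **The limit theorem with outliers.** -/
theorem spiked_thm (μ : ProbabilityMeasure ℝ) (hμ : IsCompact (μ : Measure ℝ).support) {β : ℝ}
    (hβ : 0 < β) (lam : ℝ) (Λ : (N : ℕ) → Fin N → ℝ)
    (hw : Tendsto (fun N : ℕ => empirical (Λ (N + 1))) atTop (𝓝 μ)) (hA : ∃ A, ∀ N i, A ≤ Λ N i)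
    (hl : Tendsto (fun N : ℕ => ⨆ i, Λ (N + 1) i) atTop (𝓝 lam))
    (Ω : Type*) [MeasurableSpace Ω] (P : Measure Ω) (U : (N : ℕ) → Ω → Orth N)
    (hU : ∀ N, HaarDistributed P (U N)) :
    (∀ᵐ ω ∂P, Tendsto (fun N => P166W95.pressure N β (coupling (Λ N) (U N ω))) atTop
      (𝓝 (valueR β (spiked μ lam)))) ∧
    ∀ r : ENNReal, 1 ≤ r → r ≠ ⊤ → Tendsto (fun N => eLpNorm (fun ω =>
      P166W95.pressure N β (coupling (Λ N) (U N ω)) - valueR β (spiked μ lam)) r P) atTop (𝓝 0) := by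
  let _ : ∀ N, MeasurableSpace (Orth N) := fun N => borel (Orth N)
  have : ∀ N, BorelSpace (Orth N) := fun N => ⟨rfl⟩
  choose ν hν using fun N => (existsUnique_haar N).exists
  have : ∀ N, IsProbabilityMeasure (ν N) := fun N => (hν N).1
  have : ∀ N, (ν N).IsMulLeftInvariant := fun N => (hν N).2.toIsMulLeftInvariant
  obtain ⟨p, hp⟩ := H542.exists_PP ν
  obtain ⟨A, hA⟩ := hA
  have hl' := (tendsto_add_atTop_iff_nat (f := fun N => ⨆ i, Λ N i) 1).1 hl
  have hmean := mean_lim (hp β hβ) hβ hμ ((wk_iff Λ μ).1 hw) hl' hA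
  obtain ⟨B, hB⟩ := hl'.bddAbove_range
  have hK : ∀ N i, |Λ N i| ≤ max |A| |B| := fun N i => abs_le_max_abs_abs (hA N i)
    ((le_ciSup (Set.finite_range _).bddAbove i).trans (hB ⟨N, rfl⟩))
  generalize valueR β (spiked μ lam) = v at hmean ⊢
  have hlaw : ∀ N, HasLaw (U N) (ν N) P := fun N => by
    obtain ⟨ν', h1, h2⟩ := hU N
    rwa [(existsUnique_haar N).unique (hν N) h1]
  have : IsProbabilityMeasure P := (hlaw 0).isProbabilityMeasure
  have hc : ∀ N, Continuous fun V : Orth N => P166W95.pressure N β (coupling (Λ N) V) := fun N =>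
    H295.continuous_prU β (Λ N)
  have hW : AEMeasurable (fun ω N => U N ω) P :=
    aemeasurable_pi_lambda _ fun N => (hlaw N).aemeasurable
  have has : ∀ᵐ ω ∂P, Tendsto (fun N => P166W95.pressure N β (coupling (Λ N) (U N ω))) atTop
      (𝓝 v) := by
    have := Measure.isProbabilityMeasure_map hW
    have h1 := H542.as_gen ν hβ.le (by positivity) Λ (Eventually.of_forall hK) (c := fun _ => v)
      (tendsto_sub_nhds_zero_iff.2 hmean) (P.map fun ω N => U N ω) (fun N x => x N)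
      (fun N => measurable_pi_apply N) fun N => by
        rw [AEMeasurable.map_map_of_aemeasurable (measurable_pi_apply N).aemeasurable hW]
        exact (hlaw N).map_eq
    exact (ae_of_ae_map hW h1).mono fun ω h => tendsto_sub_nhds_zero_iff.1 h
  have hm : ∀ N, AEStronglyMeasurable
      (fun ω => P166W95.pressure N β (coupling (Λ N) (U N ω))) P :=
    fun N => ((hc N).measurable.comp_aemeasurable (hlaw N).aemeasurable).aestronglyMeasurable
  obtain ⟨C, hC⟩ : ∃ C : NNReal, ∀ N (V : Orth N),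
      ‖P166W95.pressure N β (coupling (Λ N) V)‖₊ < C := by
    refine ⟨⟨max |A| |B| / 2 * |β| + 1, by positivity⟩, fun N V => ?_⟩
    change |pressure N β (V.1ᵀ * diagonal (Λ N) * V.1)| < max |A| |B| / 2 * |β| + 1
    rcases Nat.eq_zero_or_pos N with rfl | hN
    · rw [H295.pr_N0, abs_zero]
      positivity
    · have h1 := H295.pr_lip hN (H295.spec_conj (Λ N) V (hK N)) β 0
      rw [H295.pr_zero hN, sub_zero, sub_zero] at h1
      linarith
  refine ⟨has, fun r hr hr' => tendsto_Lp_finite_of_tendsto_ae hr hr' hm (memLp_const _)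
    (unifIntegrable_of hr hr' hm fun ε _ => ⟨C, fun N => ?_⟩) has⟩
  have h1 : {ω | C ≤ ‖P166W95.pressure N β (coupling (Λ N) (U N ω))‖₊} = ∅ :=
    Set.eq_empty_of_forall_notMem fun ω h => absurd h (not_le.2 (hC N (U N ω)))
  simp [h1]

end Vale.Agent.N166
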