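import Vale.Agent.N166.Icx
import Vale.Agent.N166.Key

/-! P166, outliers: convergence of the mean pressure. -/

namespace Vale.Agent.N166

open MeasureTheory Matrix Filter Topology Vale.Agent.P166
open Vale.Agent.P166.Conc (OG)
open Vale.Agent.P166W95 (rTransform)

section

variable {N : ℕ} [MeasurableSpace (OG N)] [BorelSpace (OG N)] (ν : Measure (OG N))
  [IsProbabilityMeasure ν]

/-- the mean pressure -/
noncomputable def mp (β : ℝ) (a : Fin N → ℝ) : ℝ :=
  ∫ U, pressure N β (U.1ᵀ * diagonal a * U.1) ∂ν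

theorem mp_eq (hN : 0 < N) {β : ℝ} (hβ : 0 ≤ β) (a : Fin N → ℝ) :
    mp ν β a = 1 / (N : ℝ) * FZ ν β a - Real.log 2 := by
  have h : ∀ U : OG N, pressure N β (U.1ᵀ * diagonal a * U.1) =
      1 / (N : ℝ) * LZ β a U.1 - Real.log 2 := fun U => by
    rw [H295.pr_eq hN]
    simp only [H295.qf, quad_form]
    rfl
  simp only [mp, h]
  rw [integral_sub ((integrable_LZ ν hβ a).const_mul _) (integrable_const _), integral_const_mul]
  simp [FZ]

theorem mp_icx [ν.IsMulLeftInvariant] (hN : 0 < N) {β η : ℝ} (hβ : 0 ≤ β) {a b : Fin N → ℝ}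
    (h : ∀ t, cx a t ≤ cx b (t - η)) : mp ν β a ≤ mp ν β b + β * η / 2 := by
  have hN' : (0 : ℝ) < N := by exact_mod_cast hN
  have h1 := FZ_icx ν hβ a (fun i => b i + η) fun t => (h t).trans (le_of_eq
    (Finset.sum_congr rfl fun i _ => by congr 1; ring))
  rw [FZ_shift ν hβ] at h1
  have h2 := mul_le_mul_of_nonneg_left h1 (one_div_pos.2 hN').le
  have e : 1 / (N : ℝ) * (FZ ν β b + β / 2 * η * N) = 1 / (N : ℝ) * FZ ν β b + β * η / 2 := by
    field_simp
  rw [mp_eq ν hN hβ, mp_eq ν hN hβ]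
  linarith

theorem mp_key [ν.IsMulLeftInvariant] {δ C : ℝ} (hδ : 0 < δ) (hC1 : 1 ≤ C)
    (hC : ∀ s : Finset ℤ, ∑ j ∈ s, Real.exp (-(δ ^ 2 * (j : ℝ) ^ 2)) ≤ C) {K M : ℕ} (hK : 0 < K)
    (hKM : K ≤ M) (hM : M ≤ N) {β A lam s : ℝ} (hβ : 0 ≤ β) (hD : A ≤ lam) (hs : 0 < s)
    (μ : Measure ℝ) :
    mp ν β (arr μ A lam (N - M) K N) ≤ mp ν β (arr μ A lam (N - M) 1 N) +
      (β * (lam - A) * δ ^ 2 / 2 + K / N * Real.log (Real.exp 1 * C) +
        (K / N * Real.log (Real.exp 1 * C) + (4 * s ^ 2 * (β * (lam - A)) ^ 2 / (M / N) +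
          10 * s * (β * (lam - A)) / √(M : ℝ)) + 1 / N) / s) := by
  have hN : 0 < N := by omega
  have hN' : (0 : ℝ) < N := by exact_mod_cast hN
  have hM' : (0 : ℝ) < M := by exact_mod_cast hK.trans_le hKM
  have h := key ν hδ hC1 hC hK (m := N - M) (by omega) hβ (sub_nonneg.2 hD) hs (A := A)
    (a := fun i => if (i : ℕ) < N - M then Qa μ (N - M) i else A)
    (fun i hi => if_neg (not_lt.2 hi)) ⟨N - 1, by omega⟩ (by simp only; omega)
  have e1 : (fun i : Fin N => (if (i : ℕ) < N - M then Qa μ (N - M) i else A) +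
      if i = ⟨N - 1, by omega⟩ then lam - A else 0) = arr μ A lam (N - M) 1 N := by
    funext i
    unfold arr
    congr 1
    refine if_congr ?_ rfl rfl
    rw [Fin.ext_iff]
    have := i.2
    simp only
    omega
  rw [e1, Nat.cast_sub hM, sub_sub_cancel] at h
  have h2 := mul_le_mul_of_nonneg_left h (one_div_pos.2 hN').le
  rw [mp_eq ν hN hβ, mp_eq ν hN hβ]
  change 1 / (N : ℝ) * FZ ν β (arr μ A lam (N - M) K N) ≤ _ at h2
  generalize FZ ν β (arr μ A lam (N - M) K N) = x at h2 ⊢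
  generalize FZ ν β (arr μ A lam (N - M) 1 N) = y at h2 ⊢
  generalize Real.log (Real.exp 1 * C) = L at h2 ⊢
  have hq : 0 < √(M : ℝ) := Real.sqrt_pos.2 hM'
  generalize √(M : ℝ) = q at h2 hq ⊢
  generalize β * (lam - A) = d at h2 ⊢
  have e : 1 / (N : ℝ) * (y + d * N * δ ^ 2 / 2 + K * L +
      (K * L + (4 * s ^ 2 * (d * N) ^ 2 / M + 10 * s * (d * N) / q) + 1) / s) =
      1 / (N : ℝ) * y + (d * δ ^ 2 / 2 + K / N * L +
        (K / N * L + (4 * s ^ 2 * d ^ 2 / (M / N) + 10 * s * d / q) + 1 / N) / s) := by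
    field_simp
    ring
  linarith

end

theorem exists_small {c τ : ℝ} (hc : 0 ≤ c) (hτ : 0 < τ) {b : ℝ} (hb : 0 < b) :
    ∃ ε, 0 < ε ∧ ε ≤ b ∧ ε * c ≤ τ := by
  refine ⟨min b (τ / (c + 1)), lt_min hb (by positivity), min_le_left _ _, ?_⟩
  have h1 : min b (τ / (c + 1)) * c ≤ τ / (c + 1) * c :=
    mul_le_mul_of_nonneg_right (min_le_right _ _) hc
  refine h1.trans ?_
  rw [div_mul_eq_mul_div, div_le_iff₀ (by positivity)]
  nlinarith

variable [∀ N, MeasurableSpace (OG N)] [∀ N, BorelSpace (OG N)]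
  {ν : (N : ℕ) → Measure (OG N)} [∀ N, IsProbabilityMeasure (ν N)]
  [∀ N, (ν N).IsMulLeftInvariant] {β : ℝ} {p : Measure ℝ → ℝ} (hp : H542.PP ν β p)

include hp

omit [∀ N, BorelSpace (OG N)] [∀ N, IsProbabilityMeasure (ν N)]
  [∀ N, (ν N).IsMulLeftInvariant] in
theorem mp_adm (μ : Measure ℝ) [h : IsProbabilityMeasure μ] (hμ : IsCompact μ.support) :
    ∃ c : (N : ℕ) → Fin N → ℝ, (∃ A, ∀ᶠ N in atTop, ∀ i, A ≤ c N i) ∧
      (∀ B, sSup μ.support < B → ∀ᶠ N in atTop, ∀ i, c N i ≤ B) ∧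
      (∀ t, Tendsto (fun N : ℕ => 1 / (N : ℝ) * cx (c N) t) atTop
        (𝓝 (∫ x, max (x - t) 0 ∂μ))) ∧
      Tendsto (fun N => mp (ν N) β (c N)) atTop (𝓝 (valueR β (rTransform μ))) := by
  obtain ⟨c, hc⟩ := H295.exists_admissible μ hμ
  have hglb : IsGLB (P166W95.outerValues β μ) (p μ) := P166W95.outer_eq β μ ▸ hp.glb μ h hμ
  have hval : valueR β (rTransform μ) = p μ := hglb.csInf_eq hglb.nonempty
  refine ⟨c, ⟨_, ev_ge hc.smallest (sub_one_lt _)⟩, fun B hB => ev_le hc.largest hB, fun t =>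
    cx_lim hc.weak (ev_le hc.largest (lt_add_one _))
      ((F.rt2_ae_le hμ).mono fun x hx => by linarith) t, ?_⟩
  rw [hval]
  exact hp.mean μ h hμ c hc

variable (hβ : 0 < β) {μ : Measure ℝ} [IsProbabilityMeasure μ] (hμ : IsCompact μ.support)
  {Λ : (N : ℕ) → Fin N → ℝ} (hw : Wk Λ μ) {lam : ℝ}
  (hl : Tendsto (fun N => ⨆ i, Λ N i) atTop (𝓝 lam))

include hβ hμ hw hl

theorem upper {τ : ℝ} (hτ : 0 < τ) :
    ∀ᶠ N in atTop, mp (ν N) β (Λ N) ≤ valueR β (spiked μ lam) + 2 * β * τ := by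
  have hs := sup_le_lam hμ hw hl
  have hA : sInf μ.support ≤ lam := (F.rt2_inf_le_sup hμ).trans hs
  obtain ⟨ε, h0, h1, h2⟩ := exists_small
    (c := (lam - sInf μ.support) * (2 * τ + (lam - sInf μ.support)))
    (mul_nonneg (by linarith) (by linarith)) (by positivity : 0 < 2 * τ ^ 2) one_pos
  obtain ⟨hc, hm, hs'⟩ := supp_mix (α := ε) hμ le_rfl hs h0
  have := prob_mix (μ := μ) (A := sInf μ.support) (lam := lam) h0.le le_rfl h1
  obtain ⟨c, ⟨A, hA'⟩, -, h3, h4⟩ := mp_adm hp _ hc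
  have h5 := (val_le hβ (II_r hc hβ) (II_spiked hμ hβ lam) (bdd_r hc hβ)
    fun y hy => mix_up hμ le_rfl hs hτ h0 h1 h2 hy.1).2
  have h6 := icx_ev (η := τ) (T := lam + τ / 2)
    (cx_lim hw (ev_le hl (lt_add_one _)) ((F.rt2_ae_le hμ).mono fun x hx => by linarith)) h3 hA'
    (fun t ht => by
      refine lt_of_le_of_lt ?_ (gap_pos hc hm hτ ht)
      rw [integral_mix h0.le le_rfl h1 (int_pos_part hμ t)]
      nlinarith [pos_part_le hμ hs t])
    ((ev_le hl (show lam < lam + τ / 2 by linarith)).mono fun N hN t ht => by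
      rw [cx_zero fun i => (hN i).trans ht]
      exact cx_nonneg _ _)
  filter_upwards [h6, eventually_gt_atTop 0, h4.eventually
    (gt_mem_nhds (lt_add_of_pos_right _ (by positivity : 0 < β * τ / 2)))] with N h7 hN h8
  linarith [mp_icx (ν N) hN hβ.le h7]

theorem lower {A₀ : ℝ} (hA₀ : ∀ N i, A₀ ≤ Λ N i) {τ : ℝ} (hτ : 0 < τ) :
    ∀ᶠ N in atTop, valueR β (spiked μ lam) ≤ mp (ν N) β (Λ N) + (2 * β + 5) * τ := by
  have hs := sup_le_lam hμ hw hl
  obtain ⟨A, hA⟩ : ∃ A, A = sInf μ.support := ⟨_, rfl⟩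
  have hAS : A ≤ sSup μ.support := hA ▸ F.rt2_inf_le_sup hμ
  have hD : A ≤ lam := hAS.trans hs
  have hd : 0 ≤ β * (lam - A) := mul_nonneg hβ.le (by linarith)
  obtain ⟨α, a0, a1, a2⟩ := exists_small (c := lam - A + τ) (by linarith) hτ one_half_pos
  obtain ⟨δ, d0, d1, d2⟩ := exists_small hd hτ one_pos
  obtain ⟨C, hC1, hC⟩ := theta_bdd d0
  obtain ⟨s, s0, -, s2⟩ := exists_small (c := 4 * (β * (lam - A)) ^ 2 / α) (by positivity) hτ
    one_pos
  have hL : 0 ≤ Real.log (Real.exp 1 * C) :=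
    Real.log_nonneg (one_le_mul_of_one_le_of_one_le (Real.one_le_exp zero_le_one) hC1)
  obtain ⟨ε, e0, e1, e2⟩ := exists_small (c := Real.log (Real.exp 1 * C) * (1 + 1 / s))
    (by positivity) hτ a0
  obtain ⟨hc, hm, hs'⟩ := supp_mix (α := α) hμ hA.le hs e0
  have := prob_mix (μ := μ) (A := A) (lam := lam) e0.le e1 (by linarith)
  obtain ⟨c, -, hB, h3, h4⟩ := mp_adm hp _ hc
  have h5 := (val_le hβ (II_spiked hμ hβ lam) (II_r hc hβ) (bdd_spiked hμ hβ lam)
    fun y hy => mix_lo hμ hA.le hs hτ e0 e1 (by linarith) a2 hy.1).2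
  have hM := floor_lim a0.le
  have hK := floor_lim e0.le
  have hK1 : ∀ᶠ N : ℕ in atTop, 1 ≤ ⌊ε * N⌋₊ :=
    (tendsto_nat_floor_atTop.comp (tendsto_natCast_atTop_atTop.const_mul_atTop e0)).eventually
      (eventually_ge_atTop 1)
  have hKM : ∀ N : ℕ, ⌊ε * N⌋₊ ≤ ⌊α * N⌋₊ ∧ ⌊α * N⌋₊ ≤ N := fun N =>
    ⟨Nat.floor_le_floor (mul_le_mul_of_nonneg_right e1 (Nat.cast_nonneg N)),
      Nat.floor_le_of_le (mul_le_of_le_one_left (Nat.cast_nonneg N) (by linarith))⟩
  have hQ : ∀ t, Tendsto (fun n : ℕ => 1 / (n : ℝ) * ∑ j : Fin n, max (Qa μ n j - t) 0) atTop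
      (𝓝 (∫ x, max (x - t) 0 ∂μ)) :=
    cx_lim (Λ := fun n j => Qa μ n j) (H295.weak_qt μ)
      (Eventually.of_forall fun n j => (Qa_mem hμ j.2).2) (F.rt2_ae_le hμ)
  -- the admissible array is dominated by the model with many outliers
  have h6 := icx_ev (η := τ) (T := lam + τ / 2) (A := A)
    (b := fun N => arr μ A lam (N - ⌊α * N⌋₊) ⌊ε * N⌋₊ N)
    (ψ := fun t => ∫ x, max (x - t) 0 ∂(mix μ A lam α ε)) h3
    (fun t => by
      rw [integral_mix e0.le e1 (by linarith) (int_pos_part hμ t)]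
      exact arr_lim μ A lam (by linarith) hM hK (Eventually.of_forall hKM)
        (f := fun x => max (x - t) 0) (hQ t))
    (Eventually.of_forall fun N i => by
      have := hKM N
      rcases arr_cases μ A lam (n := N - ⌊α * N⌋₊) (K := ⌊ε * N⌋₊) (by omega) i with h | h | h
      · exact (hA.le.trans (Qa_mem hμ h.1).1).trans h.2.ge
      · exact h.ge
      · exact hD.trans h.2.ge)
    (fun t ht => gap_pos hc hm hτ ht)
    ((hB (lam + τ / 2) (by linarith)).mono fun N hN t ht => by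
      rw [cx_zero fun i => (hN i).trans ht]
      exact cx_nonneg _ _)
  -- the model with one outlier is dominated by the spectrum
  have h7 := icx_ev (η := τ) (T := sSup μ.support + τ / 2) (A := A₀)
    (a := fun N => arr μ A lam (N - ⌊α * N⌋₊) 1 N) (b := Λ)
    (fun t => arr_lim μ A lam (K := fun _ => 1) (by linarith) hM one_lim
      (hK1.mono fun N hN => ⟨hN.trans (hKM N).1, (hKM N).2⟩) (f := fun x => max (x - t) 0) (hQ t))
    (cx_lim hw (ev_le hl (lt_add_one _)) ((F.rt2_ae_le hμ).mono fun x hx => by linarith))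
    (Eventually.of_forall hA₀)
    (fun t ht => by
      refine lt_of_le_of_lt ?_ (gap_pos hμ (hμ.sSup_mem F.rt2_ne) hτ ht)
      nlinarith [le_pos_part hμ hA.le t])
    (by
      filter_upwards [hK1, ev_top hl (sub_lt_self lam hτ)] with N hN ⟨i, hi⟩ t ht
      have := hKM N
      rw [cx, sum_arr μ A lam (by omega) fun x => max (x - t) 0,
        Finset.sum_eq_zero fun j _ => max_eq_right (by linarith [(Qa_mem hμ j.2).2]),
        max_eq_right (show A - t ≤ 0 by linarith), mul_zero, add_zero, zero_add, Nat.cast_one,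
        one_mul]
      exact (max_le_max_right 0 (by linarith)).trans (Finset.single_le_sum
        (f := fun i => max (Λ N i - (t - τ)) 0) (fun _ _ => le_max_right _ _) (Finset.mem_univ i)))
  have h8 : Tendsto (fun N : ℕ => β * (lam - A) * δ ^ 2 / 2 +
      (⌊ε * N⌋₊ : ℝ) / N * Real.log (Real.exp 1 * C) +
      ((⌊ε * N⌋₊ : ℝ) / N * Real.log (Real.exp 1 * C) +
        (4 * s ^ 2 * (β * (lam - A)) ^ 2 / ((⌊α * N⌋₊ : ℝ) / N) +
          10 * s * (β * (lam - A)) / √(⌊α * N⌋₊ : ℝ)) + 1 / N) / s) atTop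
      (𝓝 (β * (lam - A) * δ ^ 2 / 2 + ε * Real.log (Real.exp 1 * C) +
        (ε * Real.log (Real.exp 1 * C) + (4 * s ^ 2 * (β * (lam - A)) ^ 2 / α + 0) + 0) / s)) := by
    refine (tendsto_const_nhds.add (hK.mul_const _)).add ((((hK.mul_const _).add
      ((tendsto_const_nhds.div hM a0.ne').add (tendsto_const_nhds.div_atTop ?_))).add
        tendsto_one_div_atTop_nhds_zero_nat).div_const s)
    exact Real.tendsto_sqrt_atTop.comp (tendsto_natCast_atTop_atTop.comp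
      (tendsto_nat_floor_atTop.comp (tendsto_natCast_atTop_atTop.const_mul_atTop a0)))
  have h9 : β * (lam - A) * δ ^ 2 / 2 + ε * Real.log (Real.exp 1 * C) +
      (ε * Real.log (Real.exp 1 * C) + (4 * s ^ 2 * (β * (lam - A)) ^ 2 / α + 0) + 0) / s <
      5 * τ := by
    have e : β * (lam - A) * δ ^ 2 / 2 + ε * Real.log (Real.exp 1 * C) +
        (ε * Real.log (Real.exp 1 * C) + (4 * s ^ 2 * (β * (lam - A)) ^ 2 / α + 0) + 0) / s =
        δ * (β * (lam - A)) * δ / 2 + ε * (Real.log (Real.exp 1 * C) * (1 + 1 / s)) +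
          s * (4 * (β * (lam - A)) ^ 2 / α) := by
      field_simp
      ring
    have h10 : δ * (β * (lam - A)) * δ ≤ δ * (β * (lam - A)) :=
      mul_le_of_le_one_right (by positivity) d1
    rw [e]
    linarith
  filter_upwards [h6, h7, hK1, h8.eventually (gt_mem_nhds h9), eventually_gt_atTop 0,
    h4.eventually (lt_mem_nhds (sub_lt_self _ (by positivity : 0 < β * τ / 2)))]
    with N k1 k2 k3 k4 hN k5
  have k6 := mp_key (ν N) d0 hC1 hC k3 (hKM N).1 (hKM N).2 hβ.le hD s0 μ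
  linarith [mp_icx (ν N) hN hβ.le k1, mp_icx (ν N) hN hβ.le k2]

/-- **Convergence of the mean pressure with outliers.** -/
theorem mean_lim {A₀ : ℝ} (hA₀ : ∀ N i, A₀ ≤ Λ N i) :
    Tendsto (fun N => mp (ν N) β (Λ N)) atTop (𝓝 (valueR β (spiked μ lam))) := by
  rw [tendsto_order]
  constructor
  · intro a ha
    obtain ⟨τ, h0, -, h1⟩ := exists_small (c := 2 * β + 5) (by positivity)
      (half_pos (sub_pos.2 ha)) one_pos
    filter_upwards [lower hp hβ hμ hw hl hA₀ h0] with N hN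
    linarith
  · intro a ha
    obtain ⟨τ, h0, -, h1⟩ := exists_small (c := 2 * β) (by positivity)
      (half_pos (sub_pos.2 ha)) one_pos
    filter_upwards [upper hp hβ hμ hw hl h0] with N hN
    linarith

end Vale.Agent.N166
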