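import Vale.Agent.P166W95.Main
import Vale.Agent.P150.Bdl.B1

/-! P166, outliers: rotations inside a degenerate eigenspace and the exponential moment of the
free energy in a field of random direction. -/

namespace Vale.Agent.N166

open MeasureTheory ProbabilityTheory Matrix Vale.Agent.P166
open Vale.Agent.P166.Conc (OG Fx tr nv gam hk)
open Vale.Agent.P150.F (Lip ed)

variable {N : ℕ}

/-- log-sum-exp over the cube -/
noncomputable def lse (e : (Fin N → ℝ) → ℝ) : ℝ := Real.log (∑ σ ∈ cube N, Real.exp (e σ))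

theorem sum_pos' (e : (Fin N → ℝ) → ℝ) : 0 < ∑ σ ∈ cube N, Real.exp (e σ) :=
  Finset.sum_pos (fun _ _ => Real.exp_pos _) (cube_nonempty N)

theorem lse_le {e e' : (Fin N → ℝ) → ℝ} {c : ℝ} (h : ∀ σ ∈ cube N, e σ ≤ e' σ + c) :
    lse e ≤ lse e' + c := by
  unfold lse
  rw [← Real.log_exp c, ← Real.log_mul (sum_pos' e').ne' (Real.exp_pos c).ne', Finset.sum_mul]
  refine Real.log_le_log (sum_pos' e) (Finset.sum_le_sum fun σ hσ => ?_)
  rw [← Real.exp_add]
  exact Real.exp_le_exp.2 (h σ hσ)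

theorem lse_abs {e e' : (Fin N → ℝ) → ℝ} {c : ℝ} (h : ∀ σ ∈ cube N, |e σ - e' σ| ≤ c) :
    |lse e - lse e'| ≤ c := by
  have h1 := lse_le (e := e) (e' := e') (c := c) fun σ hσ => by linarith [(abs_le.1 (h σ hσ)).2]
  have h2 := lse_le (e := e') (e' := e) (c := c) fun σ hσ => by linarith [(abs_le.1 (h σ hσ)).1]
  exact abs_le.2 ⟨by linarith, by linarith⟩

/-- the free energy with an additional term `G (θ · U σ)` -/
noncomputable def LG (β : ℝ) (a : Fin N → ℝ) (G : ℝ → ℝ) (U : OG N) (θ : Fin N → ℝ) : ℝ :=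
  lse fun σ => en β a U.1 σ + G (θ ⬝ᵥ (U.1 *ᵥ σ))

theorem continuous_LG (β : ℝ) (a : Fin N → ℝ) {G : ℝ → ℝ} (hG : Continuous G) :
    Continuous fun p : OG N × (Fin N → ℝ) => LG β a G p.1 p.2 := by
  unfold LG lse
  refine Continuous.log (continuous_finsetSum _ fun σ _ => Real.continuous_exp.comp ?_)
    fun p => (sum_pos' _).ne'
  refine ((continuous_en β a σ).comp continuous_fst).add (hG.comp ?_)
  exact continuous_snd.dotProduct
    ((continuous_subtype_val.comp continuous_fst).matrix_mulVec continuous_const)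

theorem dot_x (U : OG N) {σ : Fin N → ℝ} (hσ : σ ∈ cube N) :
    (U.1 *ᵥ σ) ⬝ᵥ (U.1 *ᵥ σ) = N := by
  rw [← norm_rot U hσ]
  exact Finset.sum_congr rfl fun i _ => (sq _).symm

theorem dot_nn (u : Fin N → ℝ) : 0 ≤ u ⬝ᵥ u := Finset.sum_nonneg fun _ _ => mul_self_nonneg _

theorem dot_cs (u x : Fin N → ℝ) : |u ⬝ᵥ x| ≤ √(u ⬝ᵥ u) * √(x ⬝ᵥ x) := by
  rw [← Real.sqrt_mul (dot_nn u)]
  refine Real.abs_le_sqrt ?_
  have := Finset.sum_mul_sq_le_sq_mul_sq Finset.univ u x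
  simpa only [dotProduct, sq] using this

theorem dot_le (U : OG N) {σ : Fin N → ℝ} (hσ : σ ∈ cube N) {θ : Fin N → ℝ} (hθ : θ ⬝ᵥ θ ≤ 1) :
    |θ ⬝ᵥ (U.1 *ᵥ σ)| ≤ √(N : ℝ) := by
  refine (dot_cs _ _).trans ?_
  rw [dot_x U hσ]
  have : √(θ ⬝ᵥ θ) ≤ 1 := Real.sqrt_le_one.2 hθ
  nlinarith [Real.sqrt_nonneg (N : ℝ), Real.sqrt_nonneg (θ ⬝ᵥ θ)]

theorem LG_bdd (β : ℝ) (a : Fin N → ℝ) {G : ℝ → ℝ} (hG : Continuous G) :
    ∃ B, ∀ (U : OG N) (θ : Fin N → ℝ), θ ⬝ᵥ θ ≤ 1 → |LG β a G U θ| ≤ B := by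
  obtain ⟨B, hB⟩ := (isCompact_Icc (a := -√(N : ℝ)) (b := √(N : ℝ))).exists_bound_of_continuousOn
    hG.continuousOn
  have := P166W95.compact_orth N
  obtain ⟨C, hC⟩ := (isCompact_univ (X := OG N)).exists_bound_of_continuousOn
    (continuous_LZ β a).continuousOn
  refine ⟨C + B, fun U θ hθ => ?_⟩
  have h1 : |LG β a G U θ - LZ β a U.1| ≤ B := by
    refine lse_abs (e' := fun σ => en β a U.1 σ) fun σ hσ => ?_
    rw [add_sub_cancel_left]
    exact hB _ (abs_le.1 (dot_le U hσ hθ))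
  have h2 : |LZ β a U.1| ≤ C := hC U trivial
  have h3 := abs_add_le (LG β a G U θ - LZ β a U.1) (LZ β a U.1)
  rw [sub_add_cancel] at h3
  linarith

theorem en_inv {m : ℕ} {A : ℝ} {a : Fin N → ℝ} (ha : ∀ i : Fin N, m ≤ (i : ℕ) → a i = A) (β : ℝ)
    {h : OG N} (hh : h ∈ Fx N m) (U : OG N) (σ : Fin N → ℝ) :
    en β a (h * U).1 σ = en β a U.1 σ := by
  unfold en
  congr 1
  have e1 : (h * U).1 *ᵥ σ = h.1 *ᵥ (U.1 *ᵥ σ) := by rw [Matrix.mulVec_mulVec]; rfl
  rw [e1]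
  set x := U.1 *ᵥ σ
  have key : ∀ y : Fin N → ℝ, ∑ i, a i * y i ^ 2 = ∑ i, (a i - A) * y i ^ 2 + A * (y ⬝ᵥ y) := by
    intro y
    rw [dotProduct, Finset.mul_sum, ← Finset.sum_add_distrib]
    exact Finset.sum_congr rfl fun i _ => by ring
  rw [key, key x, Conc.OG.dot]
  congr 1
  refine Finset.sum_congr rfl fun i _ => ?_
  by_cases hi : (i : ℕ) < m
  · rw [Conc.Fx_coord hh x i hi]
  · rw [ha i (not_lt.1 hi), sub_self, zero_mul, zero_mul]

theorem LG_inv {m : ℕ} {A : ℝ} {a : Fin N → ℝ} (ha : ∀ i : Fin N, m ≤ (i : ℕ) → a i = A) (β : ℝ)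
    (G : ℝ → ℝ) {h : OG N} (hh : h ∈ Fx N m) (U : OG N) (θ : Fin N → ℝ) :
    LG β a G (h * U) (h.1 *ᵥ θ) = LG β a G U θ := by
  unfold LG
  congr 1
  funext σ
  have e1 : (h * U).1 *ᵥ σ = h.1 *ᵥ (U.1 *ᵥ σ) := by rw [Matrix.mulVec_mulVec]; rfl
  rw [en_inv ha β hh, e1, Conc.OG.dot]

section Haar

variable [MeasurableSpace (OG N)] [BorelSpace (OG N)] (ν : Measure (OG N))
  [IsProbabilityMeasure ν] [ν.IsMulLeftInvariant]

omit [IsProbabilityMeasure ν] in
theorem int_unit {m : ℕ} (k : Fin N) (hk' : m ≤ (k : ℕ)) {Φ : OG N → (Fin N → ℝ) → ℝ}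
    (hinv : ∀ h ∈ Fx N m, ∀ U θ, Φ (h * U) (h.1 *ᵥ θ) = Φ U θ) {θ : Fin N → ℝ}
    (h0 : θ ⬝ᵥ θ = 1) (hs : ∀ j : Fin N, (j : ℕ) < m → θ j = 0) :
    ∫ U, Φ U θ ∂ν = ∫ U, Φ U (Pi.single k 1) ∂ν := by
  have := P166W95.topGroup_orth N
  rw [← integral_mul_left_eq_self (μ := ν) (fun U => Φ U θ) (hk k θ)]
  refine integral_congr_ae (ae_of_all _ fun U => ?_)
  have h1 := hinv _ (Conc.hk_mem_Fx k hk' hs) U (Pi.single k 1)
  rw [Conc.hk_mulVec k θ h0] at h1
  exact h1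

/-- A fixed direction in the eigenspace can be replaced by a random one. -/
theorem swap {m : ℕ} (hm : m < N) {Φ : OG N → (Fin N → ℝ) → ℝ}
    (hΦ : Measurable fun p : OG N × (Fin N → ℝ) => Φ p.1 p.2) {B : ℝ}
    (hB : ∀ U θ, θ ⬝ᵥ θ ≤ 1 → |Φ U θ| ≤ B)
    (hinv : ∀ h ∈ Fx N m, ∀ U θ, Φ (h * U) (h.1 *ᵥ θ) = Φ U θ) {θ : Fin N → ℝ}
    (h0 : θ ⬝ᵥ θ = 1) (hs : ∀ j : Fin N, (j : ℕ) < m → θ j = 0) :
    ∫ U, Φ U θ ∂ν = ∫ U, ∫ g, Φ U (nv m g) ∂(gam N) ∂ν := by
  have hmeas : Measurable fun p : OG N × (Fin N → ℝ) => Φ p.1 (nv m p.2) :=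
    hΦ.comp (measurable_fst.prodMk ((Conc.measurable_nv m).comp measurable_snd))
  rw [integral_integral_swap (f := fun U g => Φ U (nv m g))
    (Conc.intg _ hmeas B fun p => hB _ _ (Conc.nv_le_one m _))]
  have h1 : ∀ᵐ g ∂(gam N), ∫ U, Φ U (nv m g) ∂ν = ∫ U, Φ U θ ∂ν := by
    filter_upwards [Conc.nv_ae_unit (⟨m, hm⟩ : Fin N)] with g hg
    rw [int_unit ν ⟨m, hm⟩ le_rfl hinv hg fun j hj => Conc.nv_zero_of_lt hj,
      int_unit ν ⟨m, hm⟩ le_rfl hinv h0 hs]
  rw [integral_congr_ae h1]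
  simp

end Haar

/-! ### The Gaussian radius -/

/-- the length of the truncated vector -/
noncomputable def rad (m : ℕ) (g : Fin N → ℝ) : ℝ := √(tr m g ⬝ᵥ tr m g)

theorem tr_eq (m : ℕ) (g : Fin N → ℝ) : tr m g = rad m g • nv m g := by
  by_cases h : tr m g = 0
  · simp [nv, h]
  · have h0 : 0 < tr m g ⬝ᵥ tr m g := by
      have h1 : 0 ≤ tr m g ⬝ᵥ tr m g := Finset.sum_nonneg fun i _ => mul_self_nonneg _
      exact h1.lt_of_ne fun h2 => h (dotProduct_self_eq_zero.1 h2.symm)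
    unfold nv rad
    rw [smul_smul, mul_inv_cancel₀ (Real.sqrt_pos.2 h0).ne', one_smul]

theorem tr_sub_le (m : ℕ) (g g' : Fin N → ℝ) :
    √((tr m g - tr m g') ⬝ᵥ (tr m g - tr m g')) ≤ ed g g' := by
  refine Real.sqrt_le_sqrt (Finset.sum_le_sum fun i _ => ?_)
  simp only [Pi.sub_apply, tr]
  split_ifs
  · exact (sq _).ge
  · simpa using sq_nonneg _

theorem lip_rad (m : ℕ) : Lip 1 (rad m : (Fin N → ℝ) → ℝ) := by
  intro g g'
  rw [one_mul]
  refine le_trans ?_ (tr_sub_le m g g')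
  have e : ∀ x : Fin N → ℝ, √(x ⬝ᵥ x) = ‖(WithLp.toLp 2 x : EuclideanSpace ℝ (Fin N))‖ := by
    intro x
    rw [EuclideanSpace.norm_eq]
    congr 1
    exact Finset.sum_congr rfl fun i _ => by simp [sq]
  unfold rad
  rw [e, e, e, WithLp.toLp_sub]
  exact abs_norm_sub_norm_le _ _

theorem card_ge {m : ℕ} (hm : m ≤ N) :
    ((Finset.univ.filter fun i : Fin N => m ≤ (i : ℕ)).card : ℝ) = N - m := by
  have h1 := Finset.card_filter_add_card_filter_not (s := (Finset.univ : Finset (Fin N)))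
    (fun i : Fin N => (i : ℕ) < m)
  rw [Fin.card_filter_val_lt, min_eq_right hm, Finset.card_univ, Fintype.card_fin] at h1
  simp only [not_lt] at h1
  have h2 := congrArg (Nat.cast : ℕ → ℝ) h1
  push_cast at h2
  linarith

theorem int_sq : ∫ x, x ^ 2 ∂(gaussianReal 0 1) = 1 := by
  have h := variance_fun_id_gaussianReal (μ := 0) (v := 1)
  rw [variance_of_integral_eq_zero (by fun_prop) (by simp)] at h
  simpa using h

theorem int_coord_sq (i : Fin N) : Integrable (fun g : Fin N → ℝ => g i ^ 2) (gam N) ∧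
    ∫ g, g i ^ 2 ∂(gam N) = 1 := by
  have h1 : MeasurePreserving (Function.eval i) (gam N) (gaussianReal 0 1) :=
    measurePreserving_eval (fun _ => gaussianReal 0 1) i
  have h2 : Integrable (fun x : ℝ => x ^ 2) (gaussianReal 0 1) :=
    (memLp_id_gaussianReal (μ := 0) (v := 1) 2).integrable_sq
  refine ⟨h1.integrable_comp_of_integrable h2, ?_⟩
  rw [← int_sq, ← h1.map_eq, integral_map h1.measurable.aemeasurable (by fun_prop)]

theorem int_rad_sq {m : ℕ} (hm : m ≤ N) : ∫ g, rad m g ^ 2 ∂(gam N) = N - m := by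
  have h1 : ∀ g : Fin N → ℝ, rad m g ^ 2 =
      ∑ i ∈ Finset.univ.filter fun i : Fin N => m ≤ (i : ℕ), g i ^ 2 := by
    intro g
    unfold rad
    rw [Real.sq_sqrt (dot_nn _), Finset.sum_filter]
    refine Finset.sum_congr rfl fun i _ => ?_
    unfold tr
    split_ifs
    · exact (sq _).symm
    · simp
  simp_rw [h1]
  rw [integral_finsetSum _ fun i _ => (int_coord_sq i).1]
  simp only [(int_coord_sq _).2, Finset.sum_const, nsmul_eq_mul, mul_one]
  exact card_ge hm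

theorem lip_dev {m : ℕ} {M : ℝ} (hM : 0 < M) :
    Lip (√M)⁻¹ fun g : Fin N → ℝ => |rad m g / √M - 1| := by
  intro g g'
  refine (abs_abs_sub_abs_le _ _).trans ?_
  have h1 := lip_rad m g g'
  have h2 : 0 < √M := Real.sqrt_pos.2 hM
  have e : rad m g / √M - 1 - (rad m g' / √M - 1) = (√M)⁻¹ * (rad m g - rad m g') := by
    field_simp
    ring
  rw [e, abs_mul, abs_of_pos (inv_pos.2 h2)]
  rw [one_mul] at h1
  exact mul_le_mul_of_nonneg_left h1 (inv_pos.2 h2).le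

theorem int_dev {m : ℕ} (hm : m < N) :
    ∫ g, |rad m g / √((N : ℝ) - m) - 1| ∂(gam N) ≤ 5 / √((N : ℝ) - m) := by
  set M : ℝ := (N : ℝ) - m with hMd
  have hM : 0 < M := sub_pos.2 (by exact_mod_cast hm)
  have hs : 0 < √M := Real.sqrt_pos.2 hM
  have hss : √M ^ 2 = M := Real.sq_sqrt hM.le
  have hl := lip_rad (N := N) m
  have i1 : Integrable (rad m) (gam N) := hl.integrable
  have i2 : Integrable (fun g => rad m g ^ 2) (gam N) := hl.integrable_sq
  have hv : ∫ g, (rad m g - ∫ g', rad m g' ∂(gam N)) ^ 2 ∂(gam N) ≤ 4 * 1 ^ 2 := hl.var_le one_pos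
  rw [Conc.integral_sq_sub _ i1 i2, int_rad_sq hm.le] at hv
  have h2 := Conc.integral_sq_sub _ i1 i2 (√M)
  rw [int_rad_sq hm.le, hss] at h2
  set μ := ∫ g', rad m g' ∂(gam N)
  have hμ : 0 ≤ μ := integral_nonneg fun g => Real.sqrt_nonneg _
  have h3 : ∫ g, (rad m g - √M) ^ 2 ∂(gam N) ≤ 8 := by
    rw [h2, ← hMd]
    rw [← hMd] at hv
    rcases le_total μ (√M) with h | h <;> nlinarith
  have i3 : Integrable (fun g => (rad m g - √M) ^ 2) (gam N) := (hl.add_const (-√M)).integrable_sq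
  have h4 : ∫ g, |rad m g / √M - 1| ∂(gam N) ≤
      ∫ g, ((rad m g - √M) ^ 2 + 1) / (2 * √M) ∂(gam N) := by
    refine integral_mono (lip_dev hM).integrable ((i3.add (integrable_const _)).div_const _)
      fun g => ?_
    have e : rad m g / √M - 1 = (rad m g - √M) / √M := by field_simp
    simp only
    rw [e, abs_div, abs_of_pos hs, div_le_div_iff₀ hs (by positivity), ← sq_abs]
    nlinarith [sq_nonneg (|rad m g - √M| - 1)]
  rw [integral_div, integral_add i3 (integrable_const _)] at h4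
  simp only [integral_const, probReal_univ, smul_eq_mul, mul_one] at h4
  refine h4.trans ?_
  rw [div_le_div_iff₀ (by positivity) hs]
  nlinarith

/-- The exponential moment of the free energy in a field of random direction. -/
theorem mgf_dir {m : ℕ} (hm : m < N) (β : ℝ) (a : Fin N → ℝ) {d ρ s : ℝ} (hd : 0 ≤ d)
    (hρ : 0 ≤ ρ) (hρ1 : ρ ≤ 1) (hs : 0 ≤ s) (U : OG N) :
    ∫ g, Real.exp (s * (LG β a (fun y => d * √(N : ℝ) * ρ * y) U (nv m g) - d * N * ρ ^ 2 / 2 -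
      ∫ g', LG β a (fun y => d / 2 * y ^ 2) U (nv m g') ∂(gam N))) ∂(gam N) ≤
      Real.exp (4 * s ^ 2 * (d * N) ^ 2 / ((N : ℝ) - m) + 10 * s * (d * N) / √((N : ℝ) - m)) := by
  set M : ℝ := (N : ℝ) - m with hMd
  have hM : 0 < M := sub_pos.2 (by exact_mod_cast hm)
  have hsM : 0 < √M := Real.sqrt_pos.2 hM
  have hN : √(N : ℝ) * √(N : ℝ) = N := Real.mul_self_sqrt (Nat.cast_nonneg N)
  have hN0 : 0 ≤ √(N : ℝ) := Real.sqrt_nonneg _
  set G : ℝ → ℝ := fun y => d * √(N : ℝ) * ρ * y with hG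
  set Q : ℝ → ℝ := fun y => d / 2 * y ^ 2 with hQ
  set X : (Fin N → ℝ) → ℝ := fun g => |rad m g / √M - 1| with hX
  set f : (Fin N → ℝ) → ℝ := fun g => LG β a G U ((√M)⁻¹ • tr m g) with hf
  have hc : 0 ≤ d * √(N : ℝ) * ρ := by positivity
  have hc1 : d * √(N : ℝ) * ρ * √(N : ℝ) ≤ d * N := by
    calc _ = d * (√(N : ℝ) * √(N : ℝ)) * ρ := by ring
      _ = d * N * ρ := by rw [hN]
      _ ≤ d * N := mul_le_of_le_one_right (by positivity) hρ1
  have lf : Lip (d * N * (√M)⁻¹) f := by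
    intro g g'
    refine lse_abs fun σ hσ => ?_
    have e : en β a U.1 σ + G (((√M)⁻¹ • tr m g) ⬝ᵥ (U.1 *ᵥ σ)) -
        (en β a U.1 σ + G (((√M)⁻¹ • tr m g') ⬝ᵥ (U.1 *ᵥ σ))) =
        d * √(N : ℝ) * ρ * (√M)⁻¹ * ((tr m g - tr m g') ⬝ᵥ (U.1 *ᵥ σ)) := by
      rw [hG, sub_dotProduct, smul_dotProduct, smul_dotProduct]
      simp only [smul_eq_mul]
      ring
    rw [e, abs_mul, abs_of_nonneg (by positivity)]
    have h1 := dot_cs (tr m g - tr m g') (U.1 *ᵥ σ)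
    rw [dot_x U hσ] at h1
    have h2 := h1.trans (mul_le_mul_of_nonneg_right (tr_sub_le m g g') hN0)
    have h3 := P150.F.ed_nonneg g g'
    calc _ ≤ d * √(N : ℝ) * ρ * (√M)⁻¹ * (ed g g' * √(N : ℝ)) :=
          mul_le_mul_of_nonneg_left h2 (by positivity)
      _ = d * √(N : ℝ) * ρ * √(N : ℝ) * ((√M)⁻¹ * ed g g') := by ring
      _ ≤ d * N * ((√M)⁻¹ * ed g g') := mul_le_mul_of_nonneg_right hc1 (by positivity)
      _ = _ := by ring
  have lX : Lip (√M)⁻¹ X := lip_dev hM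
  have hfX : ∀ g, |f g - LG β a G U (nv m g)| ≤ d * N * X g := by
    intro g
    refine lse_abs fun σ hσ => ?_
    have e : en β a U.1 σ + G (((√M)⁻¹ • tr m g) ⬝ᵥ (U.1 *ᵥ σ)) -
        (en β a U.1 σ + G (nv m g ⬝ᵥ (U.1 *ᵥ σ))) =
        d * √(N : ℝ) * ρ * ((rad m g / √M - 1) * (nv m g ⬝ᵥ (U.1 *ᵥ σ))) := by
      rw [hG, tr_eq, smul_dotProduct, smul_dotProduct]
      simp only [smul_eq_mul]
      ring
    rw [e, abs_mul, abs_of_nonneg hc, abs_mul]
    have h1 := dot_le U hσ (Conc.nv_le_one m g)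
    have h2 : 0 ≤ X g := abs_nonneg _
    calc _ ≤ d * √(N : ℝ) * ρ * (X g * √(N : ℝ)) :=
          mul_le_mul_of_nonneg_left (mul_le_mul_of_nonneg_left h1 h2) hc
      _ = d * √(N : ℝ) * ρ * √(N : ℝ) * X g := by ring
      _ ≤ _ := mul_le_mul_of_nonneg_right hc1 h2
  have hGQ : ∀ θ, LG β a G U θ ≤ LG β a Q U θ + d * N * ρ ^ 2 / 2 := fun θ =>
    lse_le fun σ _ => by
      have h1 := mul_nonneg hd (sq_nonneg (θ ⬝ᵥ (U.1 *ᵥ σ) - √(N : ℝ) * ρ))
      have h2 : (√(N : ℝ) * ρ) ^ 2 = N * ρ ^ 2 := by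
        rw [mul_pow, Real.sq_sqrt (Nat.cast_nonneg N)]
      rw [sub_sq, h2] at h1
      simp only [hG, hQ]
      linarith
  have lF : Lip (2 * (d * N) * (√M)⁻¹) fun g => f g + d * N * X g := by
    intro g g'
    have h1 := lf g g'
    have h2 := mul_le_mul_of_nonneg_left (lX g g') (by positivity : 0 ≤ d * N)
    have e : f g + d * N * X g - (f g' + d * N * X g') = (f g - f g') + d * N * (X g - X g') := by
      ring
    rw [e]
    refine (abs_add_le _ _).trans ?_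
    rw [abs_mul, abs_of_nonneg (by positivity : 0 ≤ d * N)]
    linarith
  obtain ⟨B, hB⟩ := LG_bdd β a (G := Q) (by fun_prop)
  have mQ : ∀ {G' : ℝ → ℝ}, Continuous G' → Measurable fun g => LG β a G' U (nv m g) :=
    fun hG' => ((continuous_LG β a hG').comp (Continuous.prodMk_right U)).measurable.comp
      (Conc.measurable_nv m)
  have iQ : Integrable (fun g => LG β a Q U (nv m g)) (gam N) :=
    Conc.intg _ (mQ (by fun_prop)) B fun g => hB _ _ (Conc.nv_le_one m g)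
  have iX : Integrable X (gam N) := lX.integrable
  set E := ∫ g, (f g + d * N * X g) ∂(gam N) with hE
  set Ψ := ∫ g', LG β a Q U (nv m g') ∂(gam N) with hΨ
  have hE1 : E ≤ Ψ + d * N * ρ ^ 2 / 2 + 10 * (d * N) / √M := by
    have h1 : E ≤ ∫ g, (LG β a Q U (nv m g) + d * N * ρ ^ 2 / 2 + 2 * (d * N) * X g) ∂(gam N) := by
      refine integral_mono lF.integrable ((iQ.add (integrable_const _)).add (iX.const_mul _))
        fun g => ?_
      have h2 := (abs_le.1 (hfX g)).2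
      have h3 := hGQ (nv m g)
      simp only
      linarith
    have iQ' : Integrable (fun g => LG β a Q U (nv m g) + d * N * ρ ^ 2 / 2) (gam N) :=
      iQ.add (integrable_const _)
    rw [integral_add iQ' (iX.const_mul _),
      integral_add iQ (integrable_const _), integral_const_mul] at h1
    simp only [integral_const, probReal_univ, smul_eq_mul, one_mul] at h1
    have h4 := mul_le_mul_of_nonneg_left (int_dev hm) (by positivity : 0 ≤ 2 * (d * N))
    have e : 2 * (d * N) * (5 / √M) = 10 * (d * N) / √M := by ring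
    rw [e] at h4
    linarith
  have hmg : ∫ g, Real.exp (s * (f g + d * N * X g - E)) ∂(gam N) ≤
      Real.exp (s ^ 2 * (2 * (d * N) * (√M)⁻¹) ^ 2) := lF.mgf_le s
  have iE : Integrable (fun g => Real.exp (s * (f g + d * N * X g - E))) (gam N) :=
    (lF.add_const (-E)).integrable_exp s
  calc _ ≤ ∫ g, Real.exp (s * (f g + d * N * X g - E)) *
        Real.exp (10 * s * (d * N) / √M) ∂(gam N) := by
        refine integral_mono_of_nonneg (ae_of_all _ fun g => (Real.exp_pos _).le)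
          (iE.mul_const _) (ae_of_all _ fun g => ?_)
        simp only
        rw [← Real.exp_add]
        refine Real.exp_le_exp.2 ?_
        have h2 := (abs_le.1 (hfX g)).1
        have h3 : LG β a G U (nv m g) - d * N * ρ ^ 2 / 2 - Ψ ≤
            f g + d * N * X g - E + 10 * (d * N) / √M := by linarith
        have h4 := mul_le_mul_of_nonneg_left h3 hs
        have e : s * (f g + d * N * X g - E + 10 * (d * N) / √M) =
            s * (f g + d * N * X g - E) + 10 * s * (d * N) / √M := by ring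
        linarith
    _ ≤ _ := by
        rw [integral_mul_const, Real.exp_add]
        refine mul_le_mul_of_nonneg_right (hmg.trans (le_of_eq ?_)) (Real.exp_pos _).le
        congr 1
        rw [mul_pow, inv_pow, Real.sq_sqrt hM.le]
        field_simp
        ring

end Vale.Agent.N166
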