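import Vale.Agent.N166.Defs
import Vale.Agent.P166W95.Main

/-! P166, outliers: the value of the formula as a function of `R`, and mixtures of measures. -/

namespace Vale.Agent.N166

open MeasureTheory Filter Topology Vale.Agent.P166W95 Vale.Agent.P166

theorem valueR_eq (β : ℝ) (μ : Measure ℝ) : valueR β (rTransform μ) = parisiValue β μ := rfl

theorem isLUB_innerR (β : ℝ) (R : ℝ → ℝ) {k : ℕ} {m q : ℕ → ℝ} (hm : Exponents k m)
    (hq : MonoPath k q) (hq1 : q k < 1) : IsLUB (innerR β R k m q) (sSup (innerR β R k m q)) := by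
  refine isLUB_csSup ⟨_, fun _ => 0, ⟨le_rfl, fun _ _ => le_rfl⟩, rfl⟩ ?_
  obtain ⟨B, hB⟩ := (isLUB_inner β 0 hm hq hq1).bddAbove
  refine ⟨B + (β / 2 * (∫ s in (0 : ℝ)..1, R (β * level k m q s)) - P166W95.specPart β 0 k m q),
    ?_⟩
  rintro x ⟨r, hr, rfl⟩
  have h := hB ⟨r, hr, rfl⟩
  unfold functional at h
  unfold funcR
  linarith

theorem level_mem {β : ℝ} (hβ : 0 < β) {k : ℕ} {m q : ℕ → ℝ} (hm : Exponents k m)
    (hq : MonoPath k q) (hq0 : q 0 = 0) (hq1 : q k < 1) {s : ℝ} (hs : s ∈ Set.Ioo (0 : ℝ) 1) :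
    β * level k m q s ∈ Set.Ioc 0 β := by
  have he : F.Expo k m := ⟨hm.1, hm.2.1, fun l hl => (hm.2.2 l hl).le, hm.1 ▸ hm.2.2 0 k.zero_le⟩
  have h1 : 0 < level k m q s := F.rt2_lam_pos he hq0 hq.2 hq1.le hs.1 hs.2
  refine ⟨mul_pos hβ h1, mul_le_of_le_one_right hβ.le ?_⟩
  have h2 : 0 ≤ ∑ l ∈ Finset.range (k + 1), (m (l + 1) - m l) * max (q l - s) 0 :=
    Finset.sum_nonneg fun l hl => mul_nonneg
      (sub_nonneg.2 (hm.2.2 l (Nat.lt_succ_iff.1 (Finset.mem_range.1 hl))).le) (le_max_right _ _)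
  unfold level
  linarith [hs.1]

/-- The integrals of the spectral part make sense. -/
def II (β : ℝ) (R : ℝ → ℝ) : Prop :=
  ∀ k m q, Exponents k m → MonoPath k q → q 0 = 0 → q k < 1 →
    IntervalIntegrable (fun s => R (β * level k m q s)) volume 0 1

theorem sup_le {β δ : ℝ} (hβ : 0 < β) {R R' : ℝ → ℝ} (h1 : II β R) (h2 : II β R')
    (h : ∀ y ∈ Set.Ioc 0 β, R y ≤ R' y + δ) {k : ℕ} {m q : ℕ → ℝ} (hm : Exponents k m)
    (hq : MonoPath k q) (hq0 : q 0 = 0) (hq1 : q k < 1) :
    sSup (innerR β R k m q) ≤ sSup (innerR β R' k m q) + β * δ / 2 := by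
  refine (isLUB_innerR β R hm hq hq1).2 ?_
  rintro x ⟨r, hr, rfl⟩
  have h3 := (isLUB_innerR β R' hm hq hq1).1 ⟨r, hr, rfl⟩
  have h4 : ∫ s in (0 : ℝ)..1, R (β * level k m q s) ≤
      ∫ s in (0 : ℝ)..1, (R' (β * level k m q s) + δ) :=
    intervalIntegral.integral_mono_on_of_le_Ioo zero_le_one (h1 k m q hm hq hq0 hq1)
      ((h2 k m q hm hq hq0 hq1).add intervalIntegrable_const)
      fun s hs => h _ (level_mem hβ hm hq hq0 hq1 hs)
  rw [intervalIntegral.integral_add (h2 k m q hm hq hq0 hq1) intervalIntegrable_const] at h4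
  simp only [intervalIntegral.integral_const, sub_zero, smul_eq_mul, one_mul] at h4
  have h5 := mul_le_mul_of_nonneg_left h4 (half_pos hβ).le
  unfold funcR at h3 ⊢
  linarith

theorem outerR_ne (β : ℝ) (R : ℝ → ℝ) : (outerR β R).Nonempty :=
  ⟨_, 0, fun l => l, fun _ => 0, ⟨by simp, by simp, fun l _ => by simp⟩,
    ⟨le_rfl, fun _ _ => le_rfl⟩, rfl, zero_lt_one, rfl⟩

theorem val_le {β δ : ℝ} (hβ : 0 < β) {R R' : ℝ → ℝ} (h1 : II β R) (h2 : II β R')
    (hb : BddBelow (outerR β R)) (h : ∀ y ∈ Set.Ioc 0 β, R y ≤ R' y + δ) :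
    BddBelow (outerR β R') ∧ valueR β R ≤ valueR β R' + β * δ / 2 := by
  have key : valueR β R - β * δ / 2 ∈ lowerBounds (outerR β R') := by
    rintro y ⟨k, m, q, hm, hq, hq0, hq1, rfl⟩
    have h3 : valueR β R ≤ sSup (innerR β R k m q) := csInf_le hb ⟨k, m, q, hm, hq, hq0, hq1, rfl⟩
    linarith [sup_le hβ h1 h2 h hm hq hq0 hq1]
  exact ⟨⟨_, key⟩, sub_le_iff_le_add.1 (le_csInf (outerR_ne β R') key)⟩

section

variable {μ : Measure ℝ} [IsProbabilityMeasure μ] (hμ : IsCompact μ.support) {β : ℝ} (hβ : 0 < β)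

include hμ hβ

theorem II_r : II β (rTransform μ) := fun _ _ _ hm hq hq0 hq1 =>
  (level_ok ⟨μ, inferInstance⟩ hμ hβ hm hq hq0 hq1).2

theorem bdd_r : BddBelow (outerR β (rTransform μ)) :=
  (limit_thm.{0} ⟨μ, inferInstance⟩ hμ hβ).1.bddBelow

theorem II_spiked (lam : ℝ) : II β (spiked μ lam) := by
  intro k m q hm hq hq0 hq1
  have h1 := II_r hμ hβ k m q hm hq hq0 hq1
  rw [intervalIntegrable_iff_integrableOn_Ioo_of_le zero_le_one] at h1 ⊢
  have e : (fun s => spiked μ lam (β * level k m q s)) = fun s =>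
      max (rTransform μ (β * level k m q s)) (lam - 1 / (β * level k m q s)) :=
    funext fun s => (max_sub_sub_right _ _ _).symm
  have h2 : Measurable fun s => lam - 1 / (β * level k m q s) := by
    unfold level
    fun_prop
  rw [e]
  refine integrable_of_le_of_le (g₂ := fun s => rTransform μ (β * level k m q s) +
    |lam - sInf μ.support|) (h1.aemeasurable.max h2.aemeasurable).aestronglyMeasurable
    (ae_of_all _ fun s => le_max_left _ _) ?_ h1 (h1.add (integrable_const _))
  filter_upwards [ae_restrict_mem measurableSet_Ioo] with s hs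
  have h3 := (level_mem hβ hm hq hq0 hq1 hs).1
  have h4 : sInf μ.support ≤ rTransform μ (β * level k m q s) := F.le_Rt hμ h3
  have h5 : 0 < 1 / (β * level k m q s) := one_div_pos.2 h3
  exact max_le (le_add_of_nonneg_right (abs_nonneg _))
    (by linarith [le_abs_self (lam - sInf μ.support)])

theorem bdd_spiked (lam : ℝ) : BddBelow (outerR β (spiked μ lam)) :=
  (val_le (δ := 0) hβ (II_r hμ hβ) (II_spiked hμ hβ lam) (bdd_r hμ hβ) fun y _ => by
    unfold rTransform spiked
    linarith [le_max_left (stieltjesInv μ y) lam]).1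

theorem spiked_lip {l l' : ℝ} (h : l ≤ l') :
    valueR β (spiked μ l) ≤ valueR β (spiked μ l') ∧
      valueR β (spiked μ l') ≤ valueR β (spiked μ l) + β * (l' - l) / 2 := by
  constructor
  · have := (val_le (δ := 0) hβ (II_spiked hμ hβ l) (II_spiked hμ hβ l') (bdd_spiked hμ hβ l)
      fun y _ => by
        unfold spiked
        linarith [max_le_max_left (stieltjesInv μ y) h]).2
    linarith
  · refine (val_le hβ (II_spiked hμ hβ l') (II_spiked hμ hβ l) (bdd_spiked hμ hβ l')
      fun y _ => ?_).2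
    unfold spiked
    have : max (stieltjesInv μ y) l' ≤ max (stieltjesInv μ y) l + (l' - l) :=
      max_le (by linarith [le_max_left (stieltjesInv μ y) l])
        (by linarith [le_max_right (stieltjesInv μ y) l])
    linarith

theorem spiked_eq {lam : ℝ} (h : lam ≤ stieltjesInv μ β) :
    valueR β (spiked μ lam) = valueR β (rTransform μ) := by
  have e : ∀ y ∈ Set.Ioc 0 β, spiked μ lam y = rTransform μ y := fun y hy => by
    have h1 : stieltjesInv μ β ≤ stieltjesInv μ y := F.stInv_anti hμ hy.1 hy.2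
    rw [spiked, max_eq_left (h.trans h1), rTransform]
  have h1 := (val_le (δ := 0) hβ (II_spiked hμ hβ lam) (II_r hμ hβ) (bdd_spiked hμ hβ lam)
    fun y hy => by rw [e y hy, add_zero]).2
  have h2 := (val_le (δ := 0) hβ (II_r hμ hβ) (II_spiked hμ hβ lam) (bdd_r hμ hβ)
    fun y hy => by rw [e y hy, add_zero]).2
  linarith

end

/-! ### Mixtures -/

/-- `(1 - α) μ + (α - ε) δ_A + ε δ_lam` -/
noncomputable def mix (μ : Measure ℝ) (A lam α ε : ℝ) : Measure ℝ :=
  ENNReal.ofReal (1 - α) • μ +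
    (ENNReal.ofReal (α - ε) • Measure.dirac A + ENNReal.ofReal ε • Measure.dirac lam)

section

variable {μ : Measure ℝ} {A lam α ε : ℝ}

theorem integral_mix (h0 : 0 ≤ ε) (h1 : ε ≤ α) (h2 : α ≤ 1) {f : ℝ → ℝ} (hf : Integrable f μ) :
    ∫ x, f x ∂(mix μ A lam α ε) = (1 - α) * ∫ x, f x ∂μ + (α - ε) * f A + ε * f lam := by
  have hd : ∀ (c : ℝ) (x : ℝ), Integrable f (ENNReal.ofReal c • Measure.dirac x) := fun c x =>
    (integrable_dirac (by simp)).smul_measure ENNReal.ofReal_ne_top
  rw [mix, integral_add_measure (hf.smul_measure ENNReal.ofReal_ne_top)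
    ((hd _ _).add_measure (hd _ _)), integral_add_measure (hd _ _) (hd _ _)]
  simp only [integral_smul_measure, integral_dirac, smul_eq_mul]
  rw [ENNReal.toReal_ofReal (by linarith), ENNReal.toReal_ofReal (by linarith),
    ENNReal.toReal_ofReal h0, add_assoc]

variable [IsProbabilityMeasure μ]

theorem prob_mix (h0 : 0 ≤ ε) (h1 : ε ≤ α) (h2 : α ≤ 1) :
    IsProbabilityMeasure (mix μ A lam α ε) := by
  refine ⟨?_⟩
  simp only [mix, Measure.add_apply, Measure.smul_apply, measure_univ, smul_eq_mul, mul_one]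
  rw [← ENNReal.ofReal_add (by linarith) h0, ← ENNReal.ofReal_add (by linarith) (by linarith)]
  simp

theorem supp_mix (hμ : IsCompact μ.support) (hA : A ≤ sInf μ.support)
    (hl : sSup μ.support ≤ lam) (h0 : 0 < ε) :
    IsCompact (mix μ A lam α ε).support ∧ lam ∈ (mix μ A lam α ε).support ∧
      sSup (mix μ A lam α ε).support = lam := by
  have hAl : A ≤ lam := hA.trans ((F.rt2_inf_le_sup hμ).trans hl)
  have h1 : (mix μ A lam α ε).support ⊆ Set.Icc A lam := by
    refine Measure.support_subset_of_isClosed isClosed_Icc ?_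
    have h2 : ∀ᵐ x ∂μ, x ∈ Set.Icc A lam := by
      filter_upwards [F.rt2_ae_le hμ, F.rt2_ae_ge hμ] with x h3 h4
      exact ⟨hA.trans h4, h3.trans hl⟩
    have h3 : ∀ y ∈ Set.Icc A lam, ∀ᵐ x ∂(Measure.dirac y), x ∈ Set.Icc A lam := fun y hy => by
      rw [ae_dirac_eq]
      exact hy
    change ∀ᵐ x ∂(mix μ A lam α ε), x ∈ Set.Icc A lam
    rw [mix, ae_add_measure_iff, ae_add_measure_iff]
    exact ⟨Measure.ae_smul_measure h2 _, Measure.ae_smul_measure (h3 _ ⟨le_rfl, hAl⟩) _,
      Measure.ae_smul_measure (h3 _ ⟨hAl, le_rfl⟩) _⟩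
  have h2 : lam ∈ (mix μ A lam α ε).support := by
    rw [Measure.mem_support_iff_forall]
    intro U hU
    have h3 : 0 < (ENNReal.ofReal ε • Measure.dirac lam) U := by
      rw [Measure.smul_apply, Measure.dirac_apply_of_mem (mem_of_mem_nhds hU), smul_eq_mul,
        mul_one]
      exact ENNReal.ofReal_pos.2 h0
    simp only [mix, Measure.add_apply]
    exact h3.trans_le (le_add_self.trans le_add_self)
  exact ⟨isCompact_Icc.of_isClosed_subset Measure.isClosed_support h1, h2,
    IsGreatest.csSup_eq ⟨h2, fun x hx => (h1 hx).2⟩⟩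

/-- A small atom at `lam` moves the edge to `lam` and changes little else: upper bound. -/
theorem mix_up (hμ : IsCompact μ.support) (hA : A ≤ sInf μ.support) (hl : sSup μ.support ≤ lam)
    {τ : ℝ} (hτ : 0 < τ) (h0 : 0 < ε) (h1 : ε ≤ 1)
    (h : ε * ((lam - A) * (2 * τ + (lam - A))) ≤ 2 * τ ^ 2) {y : ℝ} (hy : 0 < y) :
    rTransform (mix μ A lam ε ε) y ≤ spiked μ lam y + 2 * τ := by
  obtain ⟨-, -, hs⟩ := supp_mix (α := ε) hμ hA hl h0
  obtain ⟨w, hw⟩ : ∃ w, w = max (stieltjesInv μ y) lam + τ := ⟨_, rfl⟩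
  have hw1 : stInv μ y < w := by
    have : stInv μ y ≤ max (stieltjesInv μ y) lam := le_max_left _ _
    linarith
  have hw2 : lam + τ ≤ w := by linarith [le_max_right (stieltjesInv μ y) lam]
  have h2 : stInv (mix μ A lam ε ε) y ≤ w + τ := by
    refine F.rt_stInv_le (by linarith) ?_
    have i1 := F.rt_int_inv hμ (z := w + τ) (by linarith)
    rw [integral_mix h0.le le_rfl h1 i1, sub_self, zero_mul, add_zero]
    refine le_trans ?_ (F.rt_lt_of_stInv_lt hμ hy hw1).le
    have h3 : ∫ x, ((1 - ε) * (w + τ - x)⁻¹ + ε * (w + τ - lam)⁻¹) ∂μ ≤ ∫ x, (w - x)⁻¹ ∂μ := by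
      refine integral_mono_ae ((i1.const_mul _).add (integrable_const _))
        (F.rt_int_inv hμ (by linarith)) ?_
      filter_upwards [F.rt2_ae_le hμ, F.rt2_ae_ge hμ] with x h4 h5
      obtain ⟨u, hu⟩ : ∃ u, u = w - x := ⟨_, rfl⟩
      obtain ⟨v, hv⟩ : ∃ v, v = w + τ - lam := ⟨_, rfl⟩
      have hu0 : 0 < u := by linarith
      have hv0 : 2 * τ ≤ v := by linarith
      have hv1 : 0 < v := by linarith
      have hd : 0 ≤ lam - x := by linarith
      have hD : lam - x ≤ lam - A := by linarith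
      have e : w + τ - x = u + τ := by linarith
      rw [e, ← hu, ← hv]
      have h6 : ε * ((lam - x) * u) ≤ τ * v := by
        have h7 : (lam - x) * u ≤ (lam - A) * (v + (lam - A)) :=
          mul_le_mul hD (by linarith) hu0.le (by linarith)
        have h8 : 2 * τ * (v + (lam - A)) ≤ (2 * τ + (lam - A)) * v := by nlinarith
        have h9 := mul_le_mul_of_nonneg_left h8 (mul_nonneg h0.le (hd.trans hD))
        have h10 := mul_le_mul_of_nonneg_right h hv1.le
        have h11 := mul_le_mul_of_nonneg_left h7 (by positivity : 0 ≤ 2 * τ * ε)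
        refine le_of_mul_le_mul_left ?_ (by positivity : 0 < 2 * τ)
        nlinarith
      have e2 : u⁻¹ - ((1 - ε) * (u + τ)⁻¹ + ε * v⁻¹) =
          (τ * v - ε * ((u + τ - v) * u)) / (u * v * (u + τ)) := by
        field_simp
        ring
      have e3 : u + τ - v = lam - x := by linarith
      have h12 : 0 ≤ (τ * v - ε * ((u + τ - v) * u)) / (u * v * (u + τ)) :=
        div_nonneg (by rw [e3]; linarith) (by positivity)
      linarith
    rw [integral_add (i1.const_mul _) (integrable_const _), integral_const_mul] at h3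
    simpa using h3
  have h3 : stieltjesInv (mix μ A lam ε ε) y ≤ w + τ := h2
  unfold rTransform spiked
  linarith

/-- Lower bound. -/
theorem mix_lo (hμ : IsCompact μ.support) (hA : A ≤ sInf μ.support) (hl : sSup μ.support ≤ lam)
    {τ : ℝ} (hτ : 0 < τ) (h0 : 0 < ε) (h1 : ε ≤ α) (h1' : α ≤ 1)
    (h : α * (lam - A + τ) ≤ τ) {y : ℝ} (hy : 0 < y) :
    spiked μ lam y ≤ rTransform (mix μ A lam α ε) y + τ := by
  obtain ⟨hc, -, hs⟩ := supp_mix (α := α) hμ hA hl h0
  have := prob_mix (μ := μ) (A := A) (lam := lam) h0.le h1 h1'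
  have hAl : A ≤ lam := hA.trans ((F.rt2_inf_le_sup hμ).trans hl)
  have h2 : lam ≤ stieltjesInv (mix μ A lam α ε) y := hs.ge.trans (F.le_stInv hc hy)
  have h3 : stieltjesInv μ y - τ ≤ stieltjesInv (mix μ A lam α ε) y := by
    refine F.rt2_le_stInv hc hy fun z hz hG => sub_le_iff_le_add.2 ?_
    rw [hs] at hz
    refine F.rt_stInv_le (by linarith) (le_trans ?_ hG)
    have i1 := F.rt_int_inv hμ (z := z) (by linarith)
    rw [integral_mix h0.le h1 h1' i1]
    have h4 : ∫ x, (z + τ - x)⁻¹ ∂μ ≤ ∫ x, ((1 - α) * (z - x)⁻¹ + α * (z - A)⁻¹) ∂μ := by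
      refine integral_mono_ae (F.rt_int_inv hμ (by linarith))
        ((i1.const_mul _).add (integrable_const _)) ?_
      filter_upwards [F.rt2_ae_le hμ, F.rt2_ae_ge hμ] with x h4 h5
      obtain ⟨u, hu⟩ : ∃ u, u = z - x := ⟨_, rfl⟩
      obtain ⟨v, hv⟩ : ∃ v, v = z - A := ⟨_, rfl⟩
      have hu0 : 0 < u := by linarith
      have huv : u ≤ v := by linarith
      have hv0 : 0 < v := by linarith
      have e : z + τ - x = u + τ := by linarith
      rw [e, ← hu, ← hv]
      have h6 : α * ((v - u) * (u + τ)) ≤ τ * v := by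
        have h7 : (v - u) * u ≤ (lam - A) * v := mul_le_mul (by linarith) huv hu0.le (by linarith)
        have h8 : (v - u) * τ ≤ v * τ := mul_le_mul_of_nonneg_right (by linarith) hτ.le
        have h9 := mul_le_mul_of_nonneg_left (add_le_add h7 h8) (h0.le.trans h1)
        have h10 := mul_le_mul_of_nonneg_right h hv0.le
        nlinarith
      have e2 : (1 - α) * u⁻¹ + α * v⁻¹ - (u + τ)⁻¹ =
          (τ * v - α * ((v - u) * (u + τ))) / (u * v * (u + τ)) := by
        field_simp
        ring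
      have h12 : 0 ≤ (τ * v - α * ((v - u) * (u + τ))) / (u * v * (u + τ)) :=
        div_nonneg (by linarith) (by positivity)
      linarith
    rw [integral_add (i1.const_mul _) (integrable_const _), integral_const_mul] at h4
    simp only [integral_const, probReal_univ, smul_eq_mul, one_mul] at h4
    have h5 : (z - A)⁻¹ ≤ (z - lam)⁻¹ := inv_anti₀ (by linarith) (by linarith)
    nlinarith
  have h4 : max (stieltjesInv μ y) lam ≤ stieltjesInv (mix μ A lam α ε) y + τ :=
    max_le (by linarith) (by linarith)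
  unfold rTransform spiked
  linarith

end

end Vale.Agent.N166
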